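import Vale.Agent.BlochHeis.Key

open Filter Topology

namespace Vale.Agent.BlochHeis

theorem zeta_hasSum : HasSum (fun j : ℕ => 1 / ((j : ℝ) + 1) ^ (3 / 2 : ℝ))
    (riemannZeta (3 / 2)).re := by
  have hsum : Summable (fun j : ℕ => 1 / ((j : ℝ) + 1) ^ (3 / 2 : ℝ)) := by
    have h1 : Summable (fun n : ℕ => 1 / (n : ℝ) ^ (3 / 2 : ℝ)) :=
      Real.summable_one_div_nat_rpow.mpr (by norm_num)
    have h2 := (summable_nat_add_iff 1).mpr h1
    refine h2.congr fun j => ?_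
    push_cast
    rfl
  have h3 := zeta_eq_tsum_one_div_nat_add_one_cpow (s := (3 / 2 : ℂ)) (by norm_num)
  have h4 : ∀ n : ℕ, 1 / ((n : ℂ) + 1) ^ (3 / 2 : ℂ)
      = (((1 / ((n : ℝ) + 1) ^ (3 / 2 : ℝ) : ℝ)) : ℂ) := by
    intro n
    have hn : (0 : ℝ) ≤ (n : ℝ) + 1 := by positivity
    rw [Complex.ofReal_div, Complex.ofReal_cpow hn]
    push_cast
    rfl
  rw [tsum_congr h4, ← Complex.ofReal_tsum] at h3
  rw [h3, Complex.ofReal_re]
  exact hsum.hasSum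

/-- limit of the `j`-th term -/
noncomputable def Aj (s : ℝ) (j : ℕ) : ℝ :=
  (Real.sqrt (1 / (((j + 1 : ℕ) : ℝ) * s)) * (Real.pi⁻¹ * (Real.sqrt Real.pi / 2))) ^ 3

theorem Aj_eq (s : ℝ) (hs : 0 < s) (j : ℕ) :
    Aj s j = 1 / (8 * Real.pi ^ (3 / 2 : ℝ) * s ^ (3 / 2 : ℝ))
      * (1 / ((j : ℝ) + 1) ^ (3 / 2 : ℝ)) := by
  unfold Aj
  have hpi := Real.pi_pos
  have cube : ∀ x : ℝ, 0 ≤ x → Real.sqrt x ^ 3 = x ^ (3 / 2 : ℝ) := by
    intro x hx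
    rw [Real.sqrt_eq_rpow, ← Real.rpow_natCast, ← Real.rpow_mul hx]
    norm_num
  have hj : (0 : ℝ) < (j : ℝ) + 1 := by positivity
  rw [mul_pow, mul_pow, div_pow, cube _ (by positivity), cube _ hpi.le]
  push_cast
  rw [Real.div_rpow (by norm_num) (by positivity), Real.one_rpow, Real.mul_rpow hj.le hs.le]
  have h1 : Real.pi ^ (3 / 2 : ℝ) * Real.pi ^ (3 / 2 : ℝ) = Real.pi ^ 3 := by
    rw [← Real.rpow_add hpi, ← Real.rpow_natCast]; norm_num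
  have h2 : 0 < Real.pi ^ (3 / 2 : ℝ) := Real.rpow_pos_of_pos hpi _
  have h3 : 0 < s ^ (3 / 2 : ℝ) := Real.rpow_pos_of_pos hs _
  have h4 : 0 < ((j : ℝ) + 1) ^ (3 / 2 : ℝ) := Real.rpow_pos_of_pos hj _
  rw [inv_pow, ← h1]
  field_simp
  norm_num

theorem Aj_hasSum (s : ℝ) (hs : 0 < s) : HasSum (Aj s)
    ((riemannZeta (3 / 2)).re / (8 * Real.pi ^ (3 / 2 : ℝ) * s ^ (3 / 2 : ℝ))) := by
  have h := zeta_hasSum.mul_left (1 / (8 * Real.pi ^ (3 / 2 : ℝ) * s ^ (3 / 2 : ℝ)))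
  have e : (riemannZeta (3 / 2)).re / (8 * Real.pi ^ (3 / 2 : ℝ) * s ^ (3 / 2 : ℝ))
      = 1 / (8 * Real.pi ^ (3 / 2 : ℝ) * s ^ (3 / 2 : ℝ)) * (riemannZeta (3 / 2)).re := by ring
  rw [e]
  refine h.congr_fun ?_
  intro j
  exact Aj_eq s hs j

theorem term_tendsto (s : ℝ) (hs : 0 < s) (j : ℕ) (m : ℝ → ℝ) (hm : Tendsto m atTop (𝓝 s)) :
    Tendsto (fun β : ℝ => (Real.sqrt β * gf (((j + 1 : ℕ) : ℝ) * β * (s * s) / m β)) ^ 3) atTop
      (𝓝 (Aj s j)) := by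
  unfold Aj
  refine Tendsto.pow ?_ 3
  have hj : (0 : ℝ) < ((j + 1 : ℕ) : ℝ) := by positivity
  have hmpos : ∀ᶠ β in atTop, s / 2 < m β := hm.eventually (lt_mem_nhds (by linarith))
  have hmub : ∀ᶠ β in atTop, m β < 2 * s := hm.eventually (gt_mem_nhds (by linarith))
  -- w tends to infinity
  have hw : Tendsto (fun β : ℝ => ((j + 1 : ℕ) : ℝ) * β * (s * s) / m β) atTop atTop := by
    have h1 : Tendsto (fun β : ℝ => (((j + 1 : ℕ) : ℝ) * (s * s) / (2 * s)) * β) atTop atTop :=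
      Tendsto.const_mul_atTop (by positivity) tendsto_id
    refine tendsto_atTop_mono' _ ?_ h1
    filter_upwards [hmpos, hmub, eventually_gt_atTop 0] with β h2 h3 h4
    have hmp : 0 < m β := by linarith
    rw [div_mul_eq_mul_div]
    rw [div_le_div_iff₀ (by positivity) hmp]
    have : ((j + 1 : ℕ) : ℝ) * (s * s) * β * m β ≤ ((j + 1 : ℕ) : ℝ) * (s * s) * β * (2 * s) :=
      mul_le_mul_of_nonneg_left h3.le (by positivity)
    linarith
  have h5 := gf_tendsto.comp hw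
  have h6 : Tendsto (fun β : ℝ => Real.sqrt (m β / (((j + 1 : ℕ) : ℝ) * (s * s)))) atTop
      (𝓝 (Real.sqrt (1 / (((j + 1 : ℕ) : ℝ) * s)))) := by
    have : (1 : ℝ) / (((j + 1 : ℕ) : ℝ) * s) = s / (((j + 1 : ℕ) : ℝ) * (s * s)) := by
      field_simp
    rw [this]
    exact (hm.div_const _).sqrt
  have h7 := h6.mul h5
  refine h7.congr' ?_
  filter_upwards [hmpos, eventually_gt_atTop 0] with β h2 h4
  have hmp : 0 < m β := by linarith
  simp only [Function.comp]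
  rw [← mul_assoc, ← Real.sqrt_mul (by positivity)]
  congr 2
  field_simp

/-- The one-sided Bloch law for a function satisfying the key inequality. -/
theorem bloch_of_key (s : ℝ) (hs : 0 < s) (M : ℝ → ℝ)
    (key : ∀ β m : ℝ, 0 < β → 0 < m → m < M β → ∀ J : ℕ,
      (m / s) * ∑ j ∈ Finset.range J, (gf (((j + 1 : ℕ) : ℝ) * β * (s * s) / m)) ^ 3 ≤ s - m)
    (ε : ℝ) (hε : 0 < ε) :
    ∀ᶠ β : ℝ in atTop,
      (riemannZeta (3 / 2)).re / (8 * Real.pi ^ (3 / 2 : ℝ) * s ^ (3 / 2 : ℝ)) - ε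
        ≤ β ^ (3 / 2 : ℝ) * (s - M β) := by
  set c0 := (riemannZeta (3 / 2)).re / (8 * Real.pi ^ (3 / 2 : ℝ) * s ^ (3 / 2 : ℝ)) with hc0
  have hsum := (Aj_hasSum s hs).tendsto_sum_nat
  obtain ⟨J, hJ⟩ := (hsum.eventually (lt_mem_nhds (show c0 - ε < c0 by linarith))).exists
  set m : ℝ → ℝ := fun β => s - (c0 - ε) * (β ^ (3 / 2 : ℝ))⁻¹ with hmdef
  have hpow : Tendsto (fun β : ℝ => β ^ (3 / 2 : ℝ)) atTop atTop :=
    tendsto_rpow_atTop (by norm_num)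
  have hm : Tendsto m atTop (𝓝 s) := by
    have h1 := (tendsto_inv_atTop_zero.comp hpow).const_mul (c0 - ε)
    have h2 := (tendsto_const_nhds (x := s)).sub h1
    simpa using h2
  have hT : Tendsto (fun β : ℝ => (m β / s) * ∑ j ∈ Finset.range J,
      (Real.sqrt β * gf (((j + 1 : ℕ) : ℝ) * β * (s * s) / m β)) ^ 3) atTop
      (𝓝 ((s / s) * ∑ j ∈ Finset.range J, Aj s j)) :=
    (hm.div_const s).mul (tendsto_finsetSum _ fun j _ => term_tendsto s hs j m hm)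
  rw [div_self hs.ne', one_mul] at hT
  have hmpos : ∀ᶠ β in atTop, 0 < m β := hm.eventually (lt_mem_nhds hs)
  filter_upwards [hT.eventually (lt_mem_nhds hJ), hmpos, eventually_gt_atTop 0] with β h1 h2 h3
  by_contra hcon
  push Not at hcon
  have hb : 0 < β ^ (3 / 2 : ℝ) := Real.rpow_pos_of_pos h3 _
  have hlt : m β < M β := by
    have : s - M β < (c0 - ε) * (β ^ (3 / 2 : ℝ))⁻¹ := by
      rw [← div_eq_mul_inv, lt_div_iff₀ hb]
      linarith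
    simp only [hmdef]
    linarith
  have hk := key β (m β) h3 h2 hlt J
  have e1 : s - m β = (c0 - ε) * (β ^ (3 / 2 : ℝ))⁻¹ := by simp only [hmdef]; ring
  rw [e1] at hk
  have e2 : (m β / s) * ∑ j ∈ Finset.range J,
      (Real.sqrt β * gf (((j + 1 : ℕ) : ℝ) * β * (s * s) / m β)) ^ 3
      = β ^ (3 / 2 : ℝ) * ((m β / s) * ∑ j ∈ Finset.range J,
      (gf (((j + 1 : ℕ) : ℝ) * β * (s * s) / m β)) ^ 3) := by
    have hc : Real.sqrt β ^ 3 = β ^ (3 / 2 : ℝ) := by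
      rw [Real.sqrt_eq_rpow, ← Real.rpow_natCast, ← Real.rpow_mul h3.le]
      norm_num
    simp only [mul_pow, hc]
    rw [← Finset.mul_sum]
    ring
  rw [e2] at h1
  have h4 : β ^ (3 / 2 : ℝ) * ((m β / s) * ∑ j ∈ Finset.range J,
      (gf (((j + 1 : ℕ) : ℝ) * β * (s * s) / m β)) ^ 3)
      ≤ β ^ (3 / 2 : ℝ) * ((c0 - ε) * (β ^ (3 / 2 : ℝ))⁻¹) :=
    mul_le_mul_of_nonneg_left hk hb.le
  have h5 : β ^ (3 / 2 : ℝ) * ((c0 - ε) * (β ^ (3 / 2 : ℝ))⁻¹) = c0 - ε := by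
    field_simp
  linarith

end Vale.Agent.BlochHeis
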