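import Vale.Agent.BlochHeis.Trace

open Matrix NormedSpace

namespace Vale.Agent.BlochHeis

variable {n : Type*} [Fintype n] [DecidableEq n]

theorem scalar_ineq (u x : ℝ) :
    (1 - Real.exp (-x)) * (Real.exp u - Real.exp x) ≤ (Real.exp u - 1) * (u - x) := by
  obtain ⟨v, rfl⟩ : ∃ v, u = x + v := ⟨u - x, by ring⟩
  have h1 := Real.add_one_le_exp v
  have h2 := Real.add_one_le_exp (-v)
  have hv : 0 < Real.exp v := Real.exp_pos v
  have hx : 0 < Real.exp x := Real.exp_pos x
  have h3 : Real.exp v * Real.exp (-v) = 1 := by rw [← Real.exp_add]; simp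
  have h4 : Real.exp x * Real.exp (-x) = 1 := by rw [← Real.exp_add]; simp
  have h5 : 0 ≤ v * Real.exp v - Real.exp v + 1 := by nlinarith
  have h6 : 0 ≤ Real.exp x * (v * Real.exp v - Real.exp v + 1) := mul_nonneg hx.le h5
  rw [Real.exp_add]
  have : (Real.exp x * Real.exp v - 1) * (x + v - x)
      - (1 - Real.exp (-x)) * (Real.exp x * Real.exp v - Real.exp x)
      = Real.exp x * (v * Real.exp v - Real.exp v + 1) + (Real.exp v - 1 - v)
        + (Real.exp x * Real.exp (-x) - 1) * (Real.exp v - 1) := by ring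
  rw [h4] at this
  nlinarith

theorem conj_mul_conj (U X Y : Matrix n n ℂ) (h : Uᴴ * U = 1) :
    (U * X * Uᴴ) * (U * Y * Uᴴ) = U * (X * Y) * Uᴴ := by
  calc (U * X * Uᴴ) * (U * Y * Uᴴ) = U * X * (Uᴴ * U) * Y * Uᴴ := by
        simp only [Matrix.mul_assoc]
    _ = U * (X * Y) * Uᴴ := by rw [h]; simp only [Matrix.mul_assoc, Matrix.mul_one, Matrix.one_mul]

theorem unconj (U X : Matrix n n ℂ) (h : Uᴴ * U = 1) : Uᴴ * (U * X * Uᴴ) * U = X := by
  calc Uᴴ * (U * X * Uᴴ) * U = (Uᴴ * U) * X * (Uᴴ * U) := by simp only [Matrix.mul_assoc]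
    _ = X := by rw [h]; simp

/-- Strong form of Bogoliubov's inequality (unnormalised, with a free parameter `x`). -/
theorem strong_bogoliubov (K A : Matrix n n ℂ) (hK : K.IsHermitian) (β x : ℝ) :
    (1 - Real.exp (-x)) *
        ((trace (exp (((-β : ℝ) : ℂ) • K) * (A * Aᴴ))).re
          - Real.exp x * (trace (exp (((-β : ℝ) : ℂ) • K) * (Aᴴ * A))).re)
      ≤ β * (trace (exp (((-β : ℝ) : ℂ) • K) *
              ((A * K - K * A) * Aᴴ - Aᴴ * (A * K - K * A)))).re
        - x * ((trace (exp (((-β : ℝ) : ℂ) • K) * (A * Aᴴ))).re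
          - (trace (exp (((-β : ℝ) : ℂ) • K) * (Aᴴ * A))).re) := by
  obtain ⟨U, E, hU1, hU2, hKd, hexp⟩ := exists_diag K hK
  rw [hexp (-β)]
  set B : Matrix n n ℂ := Uᴴ * A * U with hB
  have hA : A = U * B * Uᴴ := by
    calc A = (U * Uᴴ) * A * (U * Uᴴ) := by rw [hU1]; simp
      _ = U * B * Uᴴ := by rw [hB]; simp only [Matrix.mul_assoc]
  have hAH : Aᴴ = U * Bᴴ * Uᴴ := by
    rw [hA]; simp [conjTranspose_mul, Matrix.mul_assoc]
  set D : Matrix n n ℂ := diagonal (fun i => (E i : ℂ)) with hD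
  have e1 : A * Aᴴ = U * (B * Bᴴ) * Uᴴ := by rw [hAH]; rw [hA]; exact conj_mul_conj U _ _ hU2
  have e2 : Aᴴ * A = U * (Bᴴ * B) * Uᴴ := by rw [hAH]; rw [hA]; exact conj_mul_conj U _ _ hU2
  have e3 : A * K - K * A = U * (B * D - D * B) * Uᴴ := by
    rw [hKd, hA, conj_mul_conj U _ _ hU2, conj_mul_conj U _ _ hU2, ← Matrix.sub_mul,
      ← Matrix.mul_sub]
  have e4 : (A * K - K * A) * Aᴴ - Aᴴ * (A * K - K * A)
      = U * ((B * D - D * B) * Bᴴ - Bᴴ * (B * D - D * B)) * Uᴴ := by
    rw [e3, hAH, conj_mul_conj U _ _ hU2, conj_mul_conj U _ _ hU2, ← Matrix.sub_mul,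
      ← Matrix.mul_sub]
  rw [e4, e1, e2]
  simp only [trace_exp_mul, unconj U _ hU2]
  -- entries
  have c1 : ∀ i, (B * Bᴴ) i i = ((∑ j, Complex.normSq (B i j) : ℝ) : ℂ) := by
    intro i
    rw [Matrix.mul_apply]
    push_cast
    exact Finset.sum_congr rfl fun j _ => by
      rw [conjTranspose_apply]; exact (Complex.mul_conj (B i j))
  have c2 : ∀ i, (Bᴴ * B) i i = ((∑ j, Complex.normSq (B j i) : ℝ) : ℂ) := by
    intro i
    rw [Matrix.mul_apply]
    push_cast
    exact Finset.sum_congr rfl fun j _ => by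
      rw [conjTranspose_apply, mul_comm]; exact (Complex.mul_conj (B j i))
  have cD : ∀ i j, (B * D - D * B) i j = B i j * ((E j - E i : ℝ) : ℂ) := by
    intro i j
    rw [Matrix.sub_apply, hD, Matrix.mul_diagonal, Matrix.diagonal_mul]
    push_cast; ring
  have c3 : ∀ i, ((B * D - D * B) * Bᴴ - Bᴴ * (B * D - D * B)) i i
      = ((∑ j, Complex.normSq (B i j) * (E j - E i) : ℝ) : ℂ)
        - ((∑ j, Complex.normSq (B j i) * (E i - E j) : ℝ) : ℂ) := by
    intro i
    rw [Matrix.sub_apply, Matrix.mul_apply, Matrix.mul_apply]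
    congr 1
    · push_cast
      exact Finset.sum_congr rfl fun j _ => by
        rw [conjTranspose_apply, cD, ← Complex.mul_conj (B i j)]
        push_cast
        simp only [RCLike.star_def]
        ring
    · push_cast
      exact Finset.sum_congr rfl fun j _ => by
        rw [conjTranspose_apply, cD, ← Complex.mul_conj (B j i)]
        push_cast
        simp only [RCLike.star_def]
        ring
  set p : n → ℝ := fun i => Real.exp (-β * E i) with hp
  have hpos : ∀ i, 0 < p i := fun i => Real.exp_pos _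
  have r1 : (∑ i, ((p i : ℝ) : ℂ) * (B * Bᴴ) i i).re = ∑ i, ∑ j, p j * Complex.normSq (B j i) := by
    simp only [c1]
    rw [Finset.sum_comm]
    rw [Complex.re_sum]
    refine Finset.sum_congr rfl fun i _ => ?_
    rw [← Complex.ofReal_mul, Complex.ofReal_re, Finset.mul_sum]
  have r2 : (∑ i, ((p i : ℝ) : ℂ) * (Bᴴ * B) i i).re = ∑ i, ∑ j, p i * Complex.normSq (B j i) := by
    simp only [c2]
    rw [Complex.re_sum]
    refine Finset.sum_congr rfl fun i _ => ?_
    rw [← Complex.ofReal_mul, Complex.ofReal_re, Finset.mul_sum]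
  have r3 : (∑ i, ((p i : ℝ) : ℂ) *
      ((B * D - D * B) * Bᴴ - Bᴴ * (B * D - D * B)) i i).re
      = ∑ i, ∑ j, (p j - p i) * (E i - E j) * Complex.normSq (B j i) := by
    simp only [c3]
    rw [Complex.re_sum]
    have : ∀ i, (((p i : ℝ) : ℂ) * (((∑ j, Complex.normSq (B i j) * (E j - E i) : ℝ) : ℂ)
        - ((∑ j, Complex.normSq (B j i) * (E i - E j) : ℝ) : ℂ))).re
        = (∑ j, p i * (Complex.normSq (B i j) * (E j - E i)))
          - ∑ j, p i * (Complex.normSq (B j i) * (E i - E j)) := by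
      intro i
      rw [← Complex.ofReal_sub, ← Complex.ofReal_mul, Complex.ofReal_re, mul_sub, Finset.mul_sum,
        Finset.mul_sum]
    simp only [this]
    rw [Finset.sum_sub_distrib, Finset.sum_comm, ← Finset.sum_sub_distrib]
    refine Finset.sum_congr rfl fun i _ => ?_
    rw [← Finset.sum_sub_distrib]
    refine Finset.sum_congr rfl fun j _ => ?_
    ring
  rw [r1, r2, r3]
  have key : ∀ i j, (1 - Real.exp (-x)) * (p j * Complex.normSq (B j i)
        - Real.exp x * (p i * Complex.normSq (B j i)))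
      ≤ β * ((p j - p i) * (E i - E j) * Complex.normSq (B j i))
        - x * (p j * Complex.normSq (B j i) - p i * Complex.normSq (B j i)) := by
    intro i j
    have hs := scalar_ineq (β * (E i - E j)) x
    have hpj : p j = p i * Real.exp (β * (E i - E j)) := by
      simp only [hp]
      rw [← Real.exp_add]
      congr 1
      ring
    have hw : 0 ≤ p i * Complex.normSq (B j i) := mul_nonneg (hpos i).le (Complex.normSq_nonneg _)
    have := mul_le_mul_of_nonneg_left hs hw
    rw [hpj]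
    nlinarith
  have := Finset.sum_le_sum fun i (_ : i ∈ Finset.univ) =>
    Finset.sum_le_sum fun j (_ : j ∈ Finset.univ) => key i j
  simp only [← Finset.mul_sum, Finset.sum_sub_distrib] at this
  simpa only [← Finset.mul_sum, Finset.sum_sub_distrib] using this

end Vale.Agent.BlochHeis
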