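import Mathlib

open Matrix

namespace Vale.Agent.BlochHeis

/-- `S 0, S 1, S 2` are irreducible spin-`k/2` matrices: Hermitian matrices of size `k + 1`
satisfying the angular momentum relations, with Casimir `S (S + 1)`, where `S = k / 2`. -/
structure IsSpin (k : ℕ) (S : Fin 3 → Matrix (Fin (k + 1)) (Fin (k + 1)) ℂ) : Prop where
  herm : ∀ a, (S a).IsHermitian
  comm01 : S 0 * S 1 - S 1 * S 0 = Complex.I • S 2
  comm12 : S 1 * S 2 - S 2 * S 1 = Complex.I • S 0
  comm20 : S 2 * S 0 - S 0 * S 2 = Complex.I • S 1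
  casimir : S 0 * S 0 + S 1 * S 1 + S 2 * S 2 = ((k : ℂ) / 2 * ((k : ℂ) / 2 + 1)) • 1

/-- The sites of the cube of side `2N + 1` (a translate of `{-N, …, N}³`). -/
abbrev Box (N : ℕ) : Type := Fin 3 → Fin (2 * N + 1)

/-- Operators on the tensor product of copies of `ℂ^(k+1)`, one for each site of the cube:
the basis is indexed by configurations `Box N → Fin (k + 1)`. -/
abbrev Op (k N : ℕ) : Type := Matrix (Box N → Fin (k + 1)) (Box N → Fin (k + 1)) ℂ

/-- The matrix `A` acting on the tensor factor at the site `x`. -/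
def site {k N : ℕ} (x : Box N) (A : Matrix (Fin (k + 1)) (Fin (k + 1)) ℂ) : Op k N :=
  Matrix.of fun σ τ => if ∀ y, y ≠ x → σ y = τ y then A (σ x) (τ x) else 0

/-- `S_x · S_y`. -/
def dot {k N : ℕ} (S : Fin 3 → Matrix (Fin (k + 1)) (Fin (k + 1)) ℂ) (x y : Box N) : Op k N :=
  ∑ a, site x (S a) * site y (S a)

/-- Nearest neighbours: `ℓ¹` distance one. -/
def Adj {N : ℕ} (x y : Box N) : Prop := ∑ j, |((x j : ℕ) : ℤ) - ((y j : ℕ) : ℤ)| = 1

instance {N : ℕ} (x y : Box N) : Decidable (Adj x y) := by unfold Adj; infer_instance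

/-- The ferromagnetic Heisenberg Hamiltonian with free boundary conditions. The sum is over
ordered pairs of nearest neighbours, so the factor `1/2` counts each edge once. -/
noncomputable def ham {k : ℕ} (S : Fin 3 → Matrix (Fin (k + 1)) (Fin (k + 1)) ℂ) (N : ℕ) :
    Op k N :=
  -((1 / 2 : ℂ) • ∑ x, ∑ y, if Adj x y then dot S x y else 0)

/-- Total third spin component. -/
def mag {k : ℕ} (S : Fin 3 → Matrix (Fin (k + 1)) (Fin (k + 1)) ℂ) (N : ℕ) : Op k N :=
  ∑ x, site x (S 2)

/-- The finite-volume pressure `(β |Λ|)⁻¹ log Tr exp (-β (H - h M))`. -/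
noncomputable def finPressure {k : ℕ} (S : Fin 3 → Matrix (Fin (k + 1)) (Fin (k + 1)) ℂ)
    (β h : ℝ) (N : ℕ) : ℝ :=
  (β * Fintype.card (Box N))⁻¹ *
    Real.log (trace (NormedSpace.exp (-(β : ℂ) • (ham S N - (h : ℂ) • mag S N)))).re

/-- The pressure, as the upper limit of the finite-volume pressures. -/
noncomputable def pressure {k : ℕ} (S : Fin 3 → Matrix (Fin (k + 1)) (Fin (k + 1)) ℂ)
    (β h : ℝ) : ℝ :=
  Filter.limsup (fun N : ℕ => finPressure S β h N) Filter.atTop

/-- The spontaneous magnetisation: right derivative of the pressure at field zero. -/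
noncomputable def spontMag {k : ℕ} (S : Fin 3 → Matrix (Fin (k + 1)) (Fin (k + 1)) ℂ)
    (β : ℝ) : ℝ :=
  derivWithin (fun h => pressure S β h) (Set.Ioi 0) 0

end Vale.Agent.BlochHeis
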