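import Vale.Agent.BlochHeis.Gibbs

open Matrix NormedSpace
open scoped ComplexOrder

namespace Vale.Agent.BlochHeis

variable {n : Type*} [Fintype n] [DecidableEq n]
variable {L : Type*} [Fintype L] [DecidableEq L]
variable {s : ℝ} {P Z : L → Matrix n n ℂ}

theorem geom_aux (t : ℝ) (J : ℕ) :
    (Real.exp t - 1) * ∑ j ∈ Finset.range J, Real.exp (-((j + 1 : ℕ) : ℝ) * t)
      = 1 - Real.exp (-(J : ℝ) * t) := by
  induction J with
  | zero => simp
  | succ J ih =>
    rw [Finset.sum_range_succ, mul_add, ih]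
    have : Real.exp t * Real.exp (-((J + 1 : ℕ) : ℝ) * t) = Real.exp (-(J : ℝ) * t) := by
      rw [← Real.exp_add]; congr 1; push_cast; ring
    rw [sub_mul, this, one_mul]
    ring

theorem gib_one_pos [Nonempty n] (K : Matrix n n ℂ) (hK : K.IsHermitian) (β : ℝ) :
    0 < gib K β 1 := by
  unfold gib
  rw [mul_one]
  apply trace_exp_pos
  unfold IsHermitian
  rw [conjTranspose_smul, hK.eq]
  simp

/-- finite volume upper bound on the magnetisation -/
theorem finvol [Nonempty n] [Nonempty L] (h : SpinSys s P Z) (hs : 0 < s) (c : L → L → ℝ)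
    (c0 : ∀ x, c x x = 0) (cnn : ∀ x y, 0 ≤ c x y) (hh β : ℝ) (hh0 : 0 < hh) (hβ : 0 < β)
    {κ : Type*} [Fintype κ] (φ : κ → L → ℂ)
    (horth : ∀ x y, ∑ k, star (φ k x) * φ k y = if x = y then 1 else 0)
    (hr : ∀ k x, φ k x * star (φ k x) = (((Fintype.card L : ℝ)⁻¹ : ℝ) : ℂ))
    (G : κ → ℝ) (hG : ∀ k, ∑ x, ∑ y, c x y * Complex.normSq (φ k x - φ k y) ≤ G k)
    (m : ℝ) (hm : 0 < m)
    (hle : m * (Fintype.card L * gib (heis P Z c hh) β 1)
      ≤ gib (heis P Z c hh) β (∑ x, Z x)) (J : ℕ) :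
    (m / s) * ((Fintype.card L : ℝ)⁻¹ * ∑ k, ∑ j ∈ Finset.range J,
        Real.exp (-((j + 1 : ℕ) : ℝ) * (β * (s * s * G k / (2 * m) + hh)))) ≤ s - m := by
  set K := heis P Z c hh with hK
  have hKh : K.IsHermitian := heis_herm h c c0 hh
  set Z0 := gib K β 1 with hZ0
  have hZ0p : 0 < Z0 := gib_one_pos K hKh β
  set N : ℝ := (Fintype.card L : ℝ) with hN
  have hNp : 0 < N := by rw [hN]; exact_mod_cast Fintype.card_pos
  set M := gib K β (∑ x, Z x) with hM
  have hMp : 0 < M := lt_of_lt_of_le (by positivity) hle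
  set X : κ → ℝ := fun k => gib K β ((mode P (φ k))ᴴ * mode P (φ k))
        + gib K β ((mode P (fun x => star (φ k x)))ᴴ * mode P (fun x => star (φ k x))) with hX
  have hXnn : ∀ k, 0 ≤ X k := fun k => add_nonneg
    (gib_nonneg K hKh β _ (posSemidef_conjTranspose_mul_self _))
    (gib_nonneg K hKh β _ (posSemidef_conjTranspose_mul_self _))
  have hGnn : ∀ k, 0 ≤ G k := fun k => le_trans
    (Finset.sum_nonneg fun x _ => Finset.sum_nonneg fun y _ =>
      mul_nonneg (cnn x y) (Complex.normSq_nonneg _)) (hG k)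
  set t : κ → ℝ := fun k => β * (s * s * G k / (2 * m) + hh) with ht
  have htp : ∀ k, 0 < t k := by
    intro k
    have := hGnn k
    simp only [ht]
    have : 0 ≤ s * s * G k / (2 * m) := by positivity
    positivity
  -- per-mode bound
  have hk : ∀ k, 4 * m * Z0 * (∑ j ∈ Finset.range J, Real.exp (-((j + 1 : ℕ) : ℝ) * t k)) ≤ X k := by
    intro k
    have hb := mode_bound h hs c c0 cnn hh β hβ (φ k) N⁻¹ (hr k) (t k) (htp k) ?_
    · rw [← hK] at hb
      change 4 * N⁻¹ * M ≤ (Real.exp (t k) - 1) * X k at hb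
      have h1 : 4 * m * Z0 ≤ 4 * N⁻¹ * M := by
        have : N⁻¹ * (m * (N * Z0)) ≤ N⁻¹ * M := mul_le_mul_of_nonneg_left hle (by positivity)
        have e : N⁻¹ * (m * (N * Z0)) = m * Z0 := by field_simp
        rw [e] at this
        linarith
      have h2 : 4 * m * Z0 ≤ (Real.exp (t k) - 1) * X k := le_trans h1 hb
      have hg := geom_aux (t k) J
      have hsnn : 0 ≤ ∑ j ∈ Finset.range J, Real.exp (-((j + 1 : ℕ) : ℝ) * t k) :=
        Finset.sum_nonneg fun j _ => (Real.exp_pos _).le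
      calc 4 * m * Z0 * (∑ j ∈ Finset.range J, Real.exp (-((j + 1 : ℕ) : ℝ) * t k))
          ≤ ((Real.exp (t k) - 1) * X k)
            * (∑ j ∈ Finset.range J, Real.exp (-((j + 1 : ℕ) : ℝ) * t k)) :=
            mul_le_mul_of_nonneg_right h2 hsnn
        _ = X k * (1 - Real.exp (-(J : ℝ) * t k)) := by rw [← hg]; ring
        _ ≤ X k * 1 := mul_le_mul_of_nonneg_left
            (by have := Real.exp_pos (-(J : ℝ) * t k); linarith) (hXnn k)
        _ = X k := mul_one _
    · rw [← hK]
      have hgk := hG k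
      have h3 : N⁻¹ * M ≥ m * Z0 := by
        have : N⁻¹ * (m * (N * Z0)) ≤ N⁻¹ * M := mul_le_mul_of_nonneg_left hle (by positivity)
        have e : N⁻¹ * (m * (N * Z0)) = m * Z0 := by field_simp
        rw [e] at this
        exact this
      have e1 : t k * (4 * N⁻¹ * M)
          = β * ((2 * (s * s) * G k / m) * (N⁻¹ * M) + 4 * hh * N⁻¹ * M) := by
        simp only [ht]
        field_simp
        ring
      change β * ((∑ x, ∑ y, c x y * Complex.normSq (φ k x - φ k y)) * (2 * (s * s)) * Z0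
        + 4 * hh * N⁻¹ * M) ≤ t k * (4 * N⁻¹ * M)
      rw [e1]
      refine mul_le_mul_of_nonneg_left (add_le_add ?_ le_rfl) hβ.le
      calc (∑ x, ∑ y, c x y * Complex.normSq (φ k x - φ k y)) * (2 * (s * s)) * Z0
          ≤ G k * (2 * (s * s)) * Z0 := by
            refine mul_le_mul_of_nonneg_right (mul_le_mul_of_nonneg_right hgk (by positivity))
              hZ0p.le
        _ = (2 * (s * s) * G k / m) * (m * Z0) := by field_simp
        _ ≤ (2 * (s * s) * G k / m) * (N⁻¹ * M) := by
            refine mul_le_mul_of_nonneg_left h3 ?_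
            have := hGnn k
            positivity
  -- sum over modes
  have hsum : ∑ k, X k ≤ 4 * s * (s * N * Z0 - M) := by
    have e1 : ∑ k, X k = gib K β (∑ x, (P x)ᴴ * P x) + gib K β (∑ x, (P x)ᴴ * P x) := by
      simp only [hX]
      rw [Finset.sum_add_distrib]
      congr 1
      · rw [← gib_sum, sum_modes φ horth]
      · rw [← gib_sum, sum_modes (fun k x => star (φ k x))]
        intro x y
        have := congrArg star (horth x y)
        rw [star_sum] at this
        simp only [star_mul', star_star] at this ⊢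
        rw [this]
        split_ifs <;> simp
    have e2 := lower_total h hs K hKh β
    rw [e1]
    linarith
  have hfin : 4 * m * Z0 * (∑ k, ∑ j ∈ Finset.range J, Real.exp (-((j + 1 : ℕ) : ℝ) * t k))
      ≤ 4 * s * (s * N * Z0 - M) := by
    rw [Finset.mul_sum]
    exact le_trans (Finset.sum_le_sum fun k _ => hk k) hsum
  set SS := ∑ k, ∑ j ∈ Finset.range J, Real.exp (-((j + 1 : ℕ) : ℝ) * t k) with hSS
  have h4 : 4 * s * (s * N * Z0 - M) ≤ 4 * s * (N * Z0 * (s - m)) := by
    refine mul_le_mul_of_nonneg_left ?_ (by positivity)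
    nlinarith
  have h5 : 4 * m * Z0 * SS ≤ 4 * s * (N * Z0 * (s - m)) := le_trans hfin h4
  have h6 : m / s * (N⁻¹ * SS) = (4 * m * Z0 * SS) / (4 * s * N * Z0) := by
    field_simp
  rw [h6, div_le_iff₀ (by positivity)]
  linarith

end Vale.Agent.BlochHeis
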