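import Vale.Agent.BlochHeis.Site

open Matrix

namespace Vale.Agent.BlochHeis

/-- centred frequencies -/
noncomputable def freq (N : ℕ) (a : Fin (2 * N + 1)) : ℝ :=
  2 * Real.pi * ((a : ℝ) - N) / (2 * N + 1)

theorem char_sum (N : ℕ) (d : ℤ) (hd : |d| < 2 * N + 1) :
    ∑ a : Fin (2 * N + 1), Complex.exp (Complex.I * ((freq N a * d : ℝ) : ℂ))
      = if d = 0 then (2 * N + 1 : ℂ) else 0 := by
  split_ifs with h0
  · subst h0; simp
  · set z : ℂ := Complex.exp (2 * Real.pi * Complex.I * (d / (2 * N + 1 : ℂ))) with hz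
    have hL : (2 * (N : ℂ) + 1) ≠ 0 := by exact_mod_cast (by omega : 2 * N + 1 ≠ 0)
    have e1 : ∀ a : Fin (2 * N + 1), Complex.exp (Complex.I * ((freq N a * d : ℝ) : ℂ))
        = Complex.exp (-(2 * Real.pi * Complex.I * (N * d / (2 * N + 1 : ℂ)))) * z ^ (a : ℕ) := by
      intro a
      rw [hz, ← Complex.exp_nat_mul, ← Complex.exp_add]
      congr 1
      unfold freq
      push_cast
      field_simp
      ring
    simp only [e1]
    rw [← Finset.mul_sum]
    have hz1 : z ≠ 1 := by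
      intro h1
      rw [hz, Complex.exp_eq_one_iff] at h1
      obtain ⟨m, hm⟩ := h1
      have h2 : (2 * (Real.pi : ℂ) * Complex.I) ≠ 0 := by
        simp [Real.pi_ne_zero]
      have h3 : (d : ℂ) / (2 * N + 1 : ℂ) = m := by
        have : (2 * (Real.pi : ℂ) * Complex.I) * ((d : ℂ) / (2 * N + 1 : ℂ))
            = (2 * (Real.pi : ℂ) * Complex.I) * m := by
          rw [hm]; ring
        exact mul_left_cancel₀ h2 this
      rw [div_eq_iff hL] at h3
      have h4 : d = m * (2 * N + 1) := by exact_mod_cast h3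
      have h5 : m = 0 := by
        by_contra hm0
        have h6 : 1 ≤ |m| := Int.one_le_abs hm0
        have h7 : |d| = |m| * (2 * N + 1) := by
          rw [h4, abs_mul, abs_of_pos (by positivity : (0 : ℤ) < 2 * N + 1)]
        rw [h7] at hd
        nlinarith
      rw [h5, zero_mul] at h4
      exact h0 h4
    have hzL : z ^ (2 * N + 1) = 1 := by
      rw [hz, ← Complex.exp_nat_mul, Complex.exp_eq_one_iff]
      refine ⟨d, ?_⟩
      push_cast
      field_simp
    have hgeom : ∑ a : Fin (2 * N + 1), z ^ (a : ℕ) = 0 := by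
      rw [Fin.sum_univ_eq_sum_range (fun i => z ^ i) (2 * N + 1), geom_sum_eq hz1, hzL]
      simp
    rw [hgeom, mul_zero]

/-- plane waves -/
noncomputable def wave (N : ℕ) (q x : Box N) : ℂ :=
  (((Real.sqrt (Fintype.card (Box N)))⁻¹ : ℝ) : ℂ) *
    ∏ j, Complex.exp (Complex.I * ((freq N (q j) * (x j : ℕ) : ℝ) : ℂ))

theorem card_box (N : ℕ) : Fintype.card (Box N) = (2 * N + 1) ^ 3 := by
  simp [Box]

theorem star_expI (t : ℝ) : star (Complex.exp (Complex.I * (t : ℂ)))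
    = Complex.exp (Complex.I * ((-t : ℝ) : ℂ)) := by
  rw [RCLike.star_def, ← Complex.exp_conj]
  congr 1
  simp

theorem wave_mul_star (N : ℕ) (q x y : Box N) :
    star (wave N q x) * wave N q y = (((Fintype.card (Box N) : ℝ)⁻¹ : ℝ) : ℂ)
      * ∏ j, Complex.exp (Complex.I * ((freq N (q j) * (((y j : ℕ) : ℤ) - ((x j : ℕ) : ℤ) : ℤ) : ℝ) : ℂ)) := by
  unfold wave
  rw [star_mul', star_prod]
  have e1 : star ((((Real.sqrt (Fintype.card (Box N)))⁻¹ : ℝ) : ℂ))
      = (((Real.sqrt (Fintype.card (Box N)))⁻¹ : ℝ) : ℂ) := by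
    rw [RCLike.star_def, Complex.conj_ofReal]
  rw [e1]
  have e2 : (((Real.sqrt (Fintype.card (Box N)))⁻¹ : ℝ) : ℂ)
      * (((Real.sqrt (Fintype.card (Box N)))⁻¹ : ℝ) : ℂ)
      = (((Fintype.card (Box N) : ℝ)⁻¹ : ℝ) : ℂ) := by
    rw [← Complex.ofReal_mul, ← mul_inv, Real.mul_self_sqrt (by positivity)]
  rw [mul_mul_mul_comm, e2, ← Finset.prod_mul_distrib]
  congr 1
  refine Finset.prod_congr rfl fun j _ => ?_
  rw [star_expI, ← Complex.exp_add]
  congr 1
  push_cast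
  ring

theorem wave_norm (N : ℕ) (q x : Box N) :
    wave N q x * star (wave N q x) = (((Fintype.card (Box N) : ℝ)⁻¹ : ℝ) : ℂ) := by
  rw [mul_comm, wave_mul_star]
  simp

theorem wave_orth (N : ℕ) (x y : Box N) :
    ∑ q, star (wave N q x) * wave N q y = if x = y then 1 else 0 := by
  simp only [wave_mul_star]
  rw [← Finset.mul_sum]
  have e1 : ∑ q : Box N, ∏ j, Complex.exp (Complex.I *
      ((freq N (q j) * (((y j : ℕ) : ℤ) - ((x j : ℕ) : ℤ) : ℤ) : ℝ) : ℂ))
      = ∏ j, ∑ a : Fin (2 * N + 1), Complex.exp (Complex.I *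
      ((freq N a * (((y j : ℕ) : ℤ) - ((x j : ℕ) : ℤ) : ℤ) : ℝ) : ℂ)) := by
    rw [Finset.prod_univ_sum]
    simp
  rw [e1]
  have e2 : ∀ j, ∑ a : Fin (2 * N + 1), Complex.exp (Complex.I *
      ((freq N a * (((y j : ℕ) : ℤ) - ((x j : ℕ) : ℤ) : ℤ) : ℝ) : ℂ))
      = if x j = y j then (2 * N + 1 : ℂ) else 0 := by
    intro j
    rw [char_sum N]
    · have : (((y j : ℕ) : ℤ) - ((x j : ℕ) : ℤ) = 0) ↔ x j = y j := by
        rw [sub_eq_zero, Fin.ext_iff]
        constructor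
        · intro h; exact_mod_cast h.symm
        · intro h; exact_mod_cast h.symm
      simp only [this]
    · have h1 := (x j).isLt
      have h2 := (y j).isLt
      rw [abs_lt]
      constructor <;> omega
  simp only [e2]
  by_cases h : x = y
  · subst h
    simp only [if_true]
    rw [Finset.prod_const, card_box]
    simp only [Finset.card_univ, Fintype.card_fin]
    push_cast
    have hL : (2 * (N : ℂ) + 1) ≠ 0 := by exact_mod_cast (by omega : 2 * N + 1 ≠ 0)
    field_simp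
  · rw [if_neg h]
    have : ∃ j, x j ≠ y j := by
      by_contra hcon
      push Not at hcon
      exact h (funext hcon)
    obtain ⟨j, hj⟩ := this
    rw [Finset.prod_eq_zero (Finset.mem_univ j) (if_neg hj), mul_zero]

theorem sum_off' {ι α : Type*} [Fintype ι] [DecidableEq ι] [Fintype α] [DecidableEq α]
    (x : ι) (σ : ι → α) (g : (ι → α) → ℝ)
    [∀ ρ : ι → α, Decidable (∀ y, y ≠ x → σ y = ρ y)] :
    ∑ ρ : ι → α, (if ∀ y, y ≠ x → σ y = ρ y then g ρ else 0) = ∑ a, g (Function.update σ x a) := by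
  rw [← Finset.sum_filter]
  refine Finset.sum_nbij' (fun ρ => ρ x) (fun a => Function.update σ x a) ?_ ?_ ?_ ?_ ?_
  · intro ρ _; exact Finset.mem_univ _
  · intro a _
    simp only [Finset.mem_filter, Finset.mem_univ, true_and]
    intro y hy
    rw [Function.update_of_ne hy]
  · intro ρ hρ
    simp only [Finset.mem_filter, Finset.mem_univ, true_and] at hρ
    funext y
    by_cases hy : y = x
    · subst hy; simp
    · rw [Function.update_of_ne hy]; exact hρ y hy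
  · intro a _; simp
  · intro ρ hρ
    simp only [Finset.mem_filter, Finset.mem_univ, true_and] at hρ
    congr 1
    funext y
    by_cases hy : y = x
    · subst hy; simp
    · rw [Function.update_of_ne hy]; exact (hρ y hy).symm

theorem adj_cases {N : ℕ} {x y : Box N} (h : Adj x y) :
    ∃ j, (∀ i, i ≠ j → x i = y i) ∧ |((x j : ℕ) : ℤ) - ((y j : ℕ) : ℤ)| = 1 := by
  unfold Adj at h
  rw [Fin.sum_univ_three] at h
  have a0 := abs_nonneg (((x 0 : ℕ) : ℤ) - ((y 0 : ℕ) : ℤ))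
  have a1 := abs_nonneg (((x 1 : ℕ) : ℤ) - ((y 1 : ℕ) : ℤ))
  have a2 := abs_nonneg (((x 2 : ℕ) : ℤ) - ((y 2 : ℕ) : ℤ))
  have hz : ∀ i : Fin 3, |((x i : ℕ) : ℤ) - ((y i : ℕ) : ℤ)| = 0 → x i = y i := by
    intro i hi
    rw [abs_eq_zero, sub_eq_zero] at hi
    exact Fin.ext (by exact_mod_cast hi)
  have hc : (|((x 0 : ℕ) : ℤ) - ((y 0 : ℕ) : ℤ)| = 1 ∧ |((x 1 : ℕ) : ℤ) - ((y 1 : ℕ) : ℤ)| = 0
        ∧ |((x 2 : ℕ) : ℤ) - ((y 2 : ℕ) : ℤ)| = 0)
      ∨ (|((x 0 : ℕ) : ℤ) - ((y 0 : ℕ) : ℤ)| = 0 ∧ |((x 1 : ℕ) : ℤ) - ((y 1 : ℕ) : ℤ)| = 1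
        ∧ |((x 2 : ℕ) : ℤ) - ((y 2 : ℕ) : ℤ)| = 0)
      ∨ (|((x 0 : ℕ) : ℤ) - ((y 0 : ℕ) : ℤ)| = 0 ∧ |((x 1 : ℕ) : ℤ) - ((y 1 : ℕ) : ℤ)| = 0
        ∧ |((x 2 : ℕ) : ℤ) - ((y 2 : ℕ) : ℤ)| = 1) := by
    omega
  rcases hc with ⟨h0, h1, h2⟩ | ⟨h0, h1, h2⟩ | ⟨h0, h1, h2⟩
  · refine ⟨0, ?_, h0⟩
    intro i hi
    fin_cases i
    · exact absurd rfl hi
    · exact hz 1 h1
    · exact hz 2 h2
  · refine ⟨1, ?_, h1⟩
    intro i hi
    fin_cases i
    · exact hz 0 h0
    · exact absurd rfl hi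
    · exact hz 2 h2
  · refine ⟨2, ?_, h2⟩
    intro i hi
    fin_cases i
    · exact hz 0 h0
    · exact hz 1 h1
    · exact absurd rfl hi

theorem normSq_expI_sub (t : ℝ) : Complex.normSq (1 - Complex.exp (Complex.I * (t : ℂ))) ≤ t ^ 2 := by
  have h1 : Complex.exp (Complex.I * (t : ℂ)) = ((Real.cos t : ℝ) : ℂ) + ((Real.sin t : ℝ) : ℂ) * Complex.I := by
    rw [mul_comm, Complex.exp_mul_I, Complex.ofReal_cos, Complex.ofReal_sin]
  have h0 : (1 : ℂ) - (((Real.cos t : ℝ) : ℂ) + ((Real.sin t : ℝ) : ℂ) * Complex.I)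
      = ((1 - Real.cos t : ℝ) : ℂ) + ((-Real.sin t : ℝ) : ℂ) * Complex.I := by
    push_cast; ring
  rw [h1, h0, Complex.normSq_add_mul_I]
  have h2 := Real.sin_sq_add_cos_sq t
  have h3 := Real.one_sub_sq_div_two_le_cos (x := t)
  nlinarith

theorem wave_diff (N : ℕ) (q x y : Box N) (j : Fin 3) (hj : ∀ i, i ≠ j → x i = y i)
    (h1 : |((x j : ℕ) : ℤ) - ((y j : ℕ) : ℤ)| = 1) :
    Complex.normSq (wave N q x - wave N q y) ≤ (Fintype.card (Box N) : ℝ)⁻¹ * freq N (q j) ^ 2 := by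
  have e1 : wave N q y = wave N q x * Complex.exp (Complex.I *
      ((freq N (q j) * (((y j : ℕ) : ℤ) - ((x j : ℕ) : ℤ) : ℤ) : ℝ) : ℂ)) := by
    unfold wave
    rw [mul_assoc]
    congr 1
    rw [← Finset.mul_prod_erase Finset.univ _ (Finset.mem_univ j),
      ← Finset.mul_prod_erase Finset.univ (fun i => Complex.exp (Complex.I * ((freq N (q i) * (x i : ℕ) : ℝ) : ℂ))) (Finset.mem_univ j)]
    rw [mul_assoc, mul_comm (∏ i ∈ Finset.univ.erase j, _) (Complex.exp _), ← mul_assoc,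
      ← Complex.exp_add]
    congr 1
    · congr 1
      push_cast
      ring
    · refine Finset.prod_congr rfl fun i hi => ?_
      rw [hj i (Finset.ne_of_mem_erase hi)]
  have e2 : wave N q x - wave N q y = wave N q x * (1 - Complex.exp (Complex.I *
      ((freq N (q j) * (((y j : ℕ) : ℤ) - ((x j : ℕ) : ℤ) : ℤ) : ℝ) : ℂ))) := by
    rw [e1]; ring
  have e3 : Complex.normSq (wave N q x) = (Fintype.card (Box N) : ℝ)⁻¹ := by
    have := wave_norm N q x
    rw [RCLike.star_def, Complex.mul_conj] at this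
    exact_mod_cast this
  rw [e2, Complex.normSq_mul, e3]
  refine mul_le_mul_of_nonneg_left ?_ (by positivity)
  refine le_trans (normSq_expI_sub _) ?_
  rw [mul_pow]
  have h2 : (((((y j : ℕ) : ℤ) - ((x j : ℕ) : ℤ) : ℤ)) : ℝ) ^ 2 = 1 := by
    have : ((((y j : ℕ) : ℤ) - ((x j : ℕ) : ℤ))) ^ 2 = 1 := by
      rw [← sq_abs, abs_sub_comm, h1]; norm_num
    exact_mod_cast this
  rw [h2, mul_one]

theorem count_le (N : ℕ) (a : Fin (2 * N + 1)) :
    ∑ b : Fin (2 * N + 1), (if |((a : ℕ) : ℤ) - ((b : ℕ) : ℤ)| = 1 then (1 : ℝ) else 0) ≤ 2 := by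
  rw [← Finset.sum_filter, Finset.sum_const, nsmul_eq_mul, mul_one]
  have h : (Finset.univ.filter fun b : Fin (2 * N + 1) =>
      |((a : ℕ) : ℤ) - ((b : ℕ) : ℤ)| = 1).card ≤ ({((a : ℕ) : ℤ) - 1, ((a : ℕ) : ℤ) + 1} : Finset ℤ).card := by
    refine Finset.card_le_card_of_injOn (fun b => ((b : ℕ) : ℤ)) ?_ ?_
    · intro b hb
      simp only [Finset.coe_filter, Finset.mem_univ, true_and, Set.mem_ofPred_eq] at hb
      simp only [Finset.coe_insert, Finset.coe_singleton, Set.mem_insert_iff, Set.mem_singleton_iff]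
      rcases abs_cases (((a : ℕ) : ℤ) - ((b : ℕ) : ℤ)) with ⟨h1, _⟩ | ⟨h1, _⟩ <;> omega
    · intro b _ b' _ hbb
      have hbb' : ((b : ℕ) : ℤ) = ((b' : ℕ) : ℤ) := hbb
      exact Fin.ext (by exact_mod_cast hbb')
  have h2 := Finset.card_le_two (a := ((a : ℕ) : ℤ) - 1) (b := ((a : ℕ) : ℤ) + 1)
  exact_mod_cast le_trans h h2

theorem grad_bound (N : ℕ) (q : Box N) :
    ∑ x, ∑ y, cpl N x y * Complex.normSq (wave N q x - wave N q y)
      ≤ 2 * ∑ j, freq N (q j) ^ 2 := by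
  set Cd : ℝ := (Fintype.card (Box N) : ℝ) with hCd
  have hCp : 0 < Cd := by rw [hCd]; exact_mod_cast Fintype.card_pos
  have h1 : ∀ x y : Box N, cpl N x y * Complex.normSq (wave N q x - wave N q y)
      ≤ ∑ j, (if ∀ i, i ≠ j → x i = y i then
          (if |((x j : ℕ) : ℤ) - ((y j : ℕ) : ℤ)| = 1 then Cd⁻¹ * freq N (q j) ^ 2 else 0) else 0) := by
    intro x y
    unfold cpl
    by_cases hA : Adj x y
    · rw [if_pos hA, one_mul]
      obtain ⟨j, hj, hj1⟩ := adj_cases hA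
      refine le_trans (wave_diff N q x y j hj hj1) ?_
      refine le_trans ?_ (Finset.single_le_sum (f := fun j => (if ∀ i, i ≠ j → x i = y i then
          (if |((x j : ℕ) : ℤ) - ((y j : ℕ) : ℤ)| = 1 then Cd⁻¹ * freq N (q j) ^ 2 else 0) else 0))
          ?_ (Finset.mem_univ j))
      · rw [if_pos hj, if_pos hj1]
      · intro i _
        split_ifs
        · positivity
        · exact le_rfl
        · exact le_rfl
    · rw [if_neg hA, zero_mul]
      refine Finset.sum_nonneg fun j _ => ?_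
      split_ifs
      · positivity
      · exact le_rfl
      · exact le_rfl
  have h2 : ∀ x : Box N, ∑ y, cpl N x y * Complex.normSq (wave N q x - wave N q y)
      ≤ ∑ j, 2 * (Cd⁻¹ * freq N (q j) ^ 2) := by
    intro x
    refine le_trans (Finset.sum_le_sum fun y _ => h1 x y) ?_
    rw [Finset.sum_comm]
    refine Finset.sum_le_sum fun j _ => ?_
    rw [sum_off' j x (fun y => if |((x j : ℕ) : ℤ) - ((y j : ℕ) : ℤ)| = 1
      then Cd⁻¹ * freq N (q j) ^ 2 else 0)]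
    simp only [Function.update_self]
    have : ∀ b : Fin (2 * N + 1), (if |((x j : ℕ) : ℤ) - ((b : ℕ) : ℤ)| = 1
        then Cd⁻¹ * freq N (q j) ^ 2 else 0)
        = (if |((x j : ℕ) : ℤ) - ((b : ℕ) : ℤ)| = 1 then (1 : ℝ) else 0) * (Cd⁻¹ * freq N (q j) ^ 2) := by
      intro b; split_ifs <;> simp
    simp only [this]
    rw [← Finset.sum_mul]
    exact mul_le_mul_of_nonneg_right (count_le N (x j)) (by positivity)
  refine le_trans (Finset.sum_le_sum fun x _ => h2 x) ?_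
  rw [Finset.sum_const, nsmul_eq_mul, Finset.card_univ, ← hCd, Finset.mul_sum, Finset.mul_sum]
  refine Finset.sum_le_sum fun j _ => ?_
  apply le_of_eq
  field_simp

end Vale.Agent.BlochHeis
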