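import Vale.Agent.BlochHeis.Many

open Matrix NormedSpace
open scoped ComplexOrder

namespace Vale.Agent.BlochHeis

variable {n : Type*} [Fintype n] [DecidableEq n]
variable {L : Type*} [Fintype L] [DecidableEq L]
variable {s : ℝ} {P Z : L → Matrix n n ℂ}

theorem exch_herm {P1 Z1 P2 Z2 : Matrix n n ℂ} (h1 : Z1ᴴ = Z1) (h2 : Z2ᴴ = Z2)
    (cZZ : Z1 * Z2 = Z2 * Z1) (cPQ : P1 * P2ᴴ = P2ᴴ * P1) :
    (exch P1 Z1 P2 Z2)ᴴ = exch P1 Z1 P2 Z2 := by
  have cQP : P1ᴴ * P2 = P2 * P1ᴴ := by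
    have := congrArg conjTranspose cPQ
    simpa [conjTranspose_mul] using this.symm
  unfold exch
  simp only [conjTranspose_add, conjTranspose_mul, conjTranspose_smul, h1, h2,
    conjTranspose_conjTranspose, ← cZZ, cPQ, cQP]
  simp [add_comm]

theorem heis_herm (h : SpinSys s P Z) (c : L → L → ℝ) (c0 : ∀ x, c x x = 0) (hh : ℝ) :
    (heis P Z c hh).IsHermitian := by
  unfold IsHermitian heis
  rw [conjTranspose_sub, conjTranspose_neg, conjTranspose_smul, conjTranspose_smul,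
    conjTranspose_sum, conjTranspose_sum]
  congr 1
  · congr 1
    congr 1
    · simp
    · refine Finset.sum_congr rfl fun x _ => ?_
      rw [conjTranspose_sum]
      refine Finset.sum_congr rfl fun y _ => ?_
      by_cases hxy : x = y
      · subst hxy; simp [c0]
      · rw [conjTranspose_smul]
        congr 1
        · simp
        · exact exch_herm (h.one x).Zh (h.one y).Zh (h.cZZ x y hxy) (h.cPQ x y hxy)
  · congr 1
    · simp
    · exact Finset.sum_congr rfl fun x _ => (h.one x).Zh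

theorem zz_le (h : SpinSys s P Z) (hs : 0 < s) (x y : L) (hxy : x ≠ y) :
    (((s : ℂ) * s) • (1 : Matrix n n ℂ) - Z x * Z y).PosSemidef := by
  apply psd_of_smul (c := 2) (by norm_num)
  have hD : (Z x - Z y)ᴴ = Z x - Z y := by simp [(h.one x).Zh, (h.one y).Zh]
  have e : ((2 : ℝ) : ℂ) • (((s : ℂ) * s) • (1 : Matrix n n ℂ) - Z x * Z y)
      = (((s : ℂ) * s) • (1 : Matrix n n ℂ) - Z x * Z x)
        + (((s : ℂ) * s) • (1 : Matrix n n ℂ) - Z y * Z y)
        + (Z x - Z y)ᴴ * (Z x - Z y) := by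
    rw [hD]
    simp only [sub_mul, mul_sub, ← h.cZZ x y hxy]
    push_cast
    module
  rw [e]
  exact (((h.one x).sq hs).add ((h.one y).sq hs)).add (posSemidef_conjTranspose_mul_self _)

theorem ex_le (h : SpinSys s P Z) (hs : 0 < s) (x y : L) (hxy : x ≠ y) :
    (((s : ℂ) * s) • (1 : Matrix n n ℂ) - ex P Z x y).PosSemidef := by
  refine exch_le hs (h.one x) (h.one y) (h.cZZ x y hxy) (h.cZP x y hxy) ?_ (h.cPP x y hxy)
    (h.cPQ x y hxy)
  exact (h.cZP y x hxy.symm).symm

/-- real part of the unnormalised Gibbs expectation -/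
noncomputable def gib (K : Matrix n n ℂ) (β : ℝ) (O : Matrix n n ℂ) : ℝ :=
  (trace (exp (((-β : ℝ) : ℂ) • K) * O)).re

theorem gib_add (K : Matrix n n ℂ) (β : ℝ) (O O' : Matrix n n ℂ) :
    gib K β (O + O') = gib K β O + gib K β O' := by
  unfold gib; rw [mul_add, trace_add, Complex.add_re]

theorem gib_sub (K : Matrix n n ℂ) (β : ℝ) (O O' : Matrix n n ℂ) :
    gib K β (O - O') = gib K β O - gib K β O' := by
  unfold gib; rw [mul_sub, trace_sub, Complex.sub_re]

theorem gib_smul (K : Matrix n n ℂ) (β : ℝ) (a : ℝ) (O : Matrix n n ℂ) :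
    gib K β ((a : ℂ) • O) = a * gib K β O := by
  unfold gib; rw [mul_smul_comm, trace_smul, smul_eq_mul, Complex.re_ofReal_mul]

theorem gib_sum {ι : Type*} (K : Matrix n n ℂ) (β : ℝ) (t : Finset ι) (O : ι → Matrix n n ℂ) :
    gib K β (∑ i ∈ t, O i) = ∑ i ∈ t, gib K β (O i) := by
  unfold gib; rw [Finset.mul_sum, trace_sum, Complex.re_sum]

theorem gib_nonneg (K : Matrix n n ℂ) (hK : K.IsHermitian) (β : ℝ) (O : Matrix n n ℂ)
    (hO : O.PosSemidef) : 0 ≤ gib K β O := by
  unfold gib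
  refine trace_exp_mul_nonneg _ _ ?_ hO
  unfold IsHermitian
  rw [conjTranspose_smul, hK.eq]
  simp

theorem gib_le (K : Matrix n n ℂ) (hK : K.IsHermitian) (β : ℝ) (O O' : Matrix n n ℂ)
    (hO : (O' - O).PosSemidef) : gib K β O ≤ gib K β O' := by
  have := gib_nonneg K hK β _ hO
  rw [gib_sub] at this
  linarith

/-- Lower bound for the occupation of one pair of conjugate modes. -/
theorem mode_bound (h : SpinSys s P Z) (hs : 0 < s) (c : L → L → ℝ) (c0 : ∀ x, c x x = 0)
    (cnn : ∀ x y, 0 ≤ c x y) (hh β : ℝ) (hβ : 0 < β) (φ : L → ℂ) (r : ℝ)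
    (hr : ∀ x, φ x * star (φ x) = (r : ℂ)) (t : ℝ) (ht : 0 < t)
    (hT : β * ((∑ x, ∑ y, c x y * Complex.normSq (φ x - φ y)) * (2 * (s * s))
        * gib (heis P Z c hh) β 1 + 4 * hh * r * gib (heis P Z c hh) β (∑ x, Z x))
      ≤ t * (4 * r * gib (heis P Z c hh) β (∑ x, Z x))) :
    4 * r * gib (heis P Z c hh) β (∑ x, Z x)
      ≤ (Real.exp t - 1) * (gib (heis P Z c hh) β ((mode P φ)ᴴ * mode P φ)
        + gib (heis P Z c hh) β ((mode P (fun x => star (φ x)))ᴴ
            * mode P (fun x => star (φ x)))) := by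
  set K := heis P Z c hh with hK
  have hKh : K.IsHermitian := heis_herm h c c0 hh
  set A := mode P φ with hA
  set B := mode P (fun x => star (φ x)) with hB
  have b1 := strong_bogoliubov K A hKh β t
  have b2 := strong_bogoliubov K B hKh β t
  have d1 : (trace (exp (((-β : ℝ) : ℂ) • K) * ((A * K - K * A) * Aᴴ - Aᴴ * (A * K - K * A)))).re
      = gib K β (dcomm A K) := rfl
  have d2 : (trace (exp (((-β : ℝ) : ℂ) • K) * ((B * K - K * B) * Bᴴ - Bᴴ * (B * K - K * B)))).re
      = gib K β (dcomm B K) := rfl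
  rw [d1] at b1
  rw [d2] at b2
  change (1 - Real.exp (-t)) * (gib K β (A * Aᴴ) - Real.exp t * gib K β (Aᴴ * A))
    ≤ β * gib K β (dcomm A K) - t * (gib K β (A * Aᴴ) - gib K β (Aᴴ * A)) at b1
  change (1 - Real.exp (-t)) * (gib K β (B * Bᴴ) - Real.exp t * gib K β (Bᴴ * B))
    ≤ β * gib K β (dcomm B K) - t * (gib K β (B * Bᴴ) - gib K β (Bᴴ * B)) at b2
  -- commutators
  have e1 : gib K β (A * Aᴴ) - gib K β (Aᴴ * A) = 2 * r * gib K β (∑ x, Z x) := by
    rw [← gib_sub, hA, mode_mode h φ]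
    have : ∑ x, ((2 : ℂ) * (φ x * star (φ x))) • Z x = ((2 * r : ℝ) : ℂ) • ∑ x, Z x := by
      rw [Finset.smul_sum]
      refine Finset.sum_congr rfl fun x _ => ?_
      rw [hr x]; push_cast; rfl
    rw [this, gib_smul]
  have e2 : gib K β (B * Bᴴ) - gib K β (Bᴴ * B) = 2 * r * gib K β (∑ x, Z x) := by
    rw [← gib_sub, hB, mode_mode h]
    have : ∑ x, ((2 : ℂ) * (star (φ x) * star (star (φ x)))) • Z x
        = ((2 * r : ℝ) : ℂ) • ∑ x, Z x := by
      rw [Finset.smul_sum]
      refine Finset.sum_congr rfl fun x _ => ?_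
      rw [star_star, mul_comm (star (φ x)), hr x]; push_cast; rfl
    rw [this, gib_smul]
  -- double commutators
  have e3 : gib K β (dcomm A K) + gib K β (dcomm B K)
      ≤ (∑ x, ∑ y, c x y * Complex.normSq (φ x - φ y)) * (2 * (s * s)) * gib K β 1
        + 4 * hh * r * gib K β (∑ x, Z x) := by
    rw [← gib_add, hA, hB, hK, dcomm_pair h c c0 hh φ r hr, ← hK, gib_add, gib_smul, gib_sum]
    refine add_le_add ?_ le_rfl
    rw [Finset.sum_mul, Finset.sum_mul]
    refine Finset.sum_le_sum fun x _ => ?_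
    rw [gib_sum, Finset.sum_mul, Finset.sum_mul]
    refine Finset.sum_le_sum fun y _ => ?_
    rw [gib_smul]
    by_cases hxy : x = y
    · subst hxy; simp [c0]
    · rw [mul_assoc (c x y * Complex.normSq (φ x - φ y))]
      refine mul_le_mul_of_nonneg_left ?_ (mul_nonneg (cnn x y) (Complex.normSq_nonneg _))
      have : 2 * (s * s) * gib K β 1 = gib K β ((((2 * (s * s) : ℝ)) : ℂ) • 1) := by
        rw [gib_smul]
      rw [this]
      apply gib_le K hKh
      have e : (((2 * (s * s) : ℝ)) : ℂ) • (1 : Matrix n n ℂ) - (Z x * Z y + ex P Z x y)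
          = (((s : ℂ) * s) • (1 : Matrix n n ℂ) - Z x * Z y)
            + (((s : ℂ) * s) • (1 : Matrix n n ℂ) - ex P Z x y) := by
        push_cast
        module
      rw [e]
      exact (zz_le h hs x y hxy).add (ex_le h hs x y hxy)
  have hxt : 0 < 1 - Real.exp (-t) := by
    have : Real.exp (-t) < 1 := by rw [Real.exp_lt_one_iff]; linarith
    linarith
  have hkey : (1 - Real.exp (-t)) * ((gib K β (A * Aᴴ) + gib K β (B * Bᴴ))
      - Real.exp t * (gib K β (Aᴴ * A) + gib K β (Bᴴ * B))) ≤ 0 := by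
    have h4 : β * (gib K β (dcomm A K) + gib K β (dcomm B K)) ≤ t * (4 * r * gib K β (∑ x, Z x)) :=
      le_trans (mul_le_mul_of_nonneg_left e3 hβ.le) hT
    have h5 : t * (4 * r * gib K β (∑ x, Z x)) = t * (gib K β (A * Aᴴ) - gib K β (Aᴴ * A))
        + t * (gib K β (B * Bᴴ) - gib K β (Bᴴ * B)) := by
      rw [e1, e2]; ring
    rw [h5] at h4
    nlinarith
  have h6 : (gib K β (A * Aᴴ) + gib K β (B * Bᴴ))
      - Real.exp t * (gib K β (Aᴴ * A) + gib K β (Bᴴ * B)) ≤ 0 := by
    by_contra hcon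
    push Not at hcon
    have := mul_pos hxt hcon
    linarith
  have h7 : 4 * r * gib K β (∑ x, Z x) = (gib K β (A * Aᴴ) + gib K β (B * Bᴴ))
      - (gib K β (Aᴴ * A) + gib K β (Bᴴ * B)) := by
    linear_combination -e1 - e2
  rw [h7]
  linarith

/-- Completeness of a mode family. -/
theorem sum_modes {κ : Type*} [Fintype κ] (φ : κ → L → ℂ)
    (horth : ∀ x y, ∑ k, star (φ k x) * φ k y = if x = y then 1 else 0) :
    ∑ k, (mode P (φ k))ᴴ * mode P (φ k) = ∑ x, (P x)ᴴ * P x := by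
  have e1 : ∀ k, (mode P (φ k))ᴴ * mode P (φ k)
      = ∑ x, ∑ y, (star (φ k x) * φ k y) • ((P x)ᴴ * P y) := by
    intro k
    rw [mode_conjTranspose]
    unfold mode
    rw [Finset.sum_mul_sum]
    refine Finset.sum_congr rfl fun x _ => Finset.sum_congr rfl fun y _ => ?_
    rw [smul_mul_assoc, mul_smul_comm, smul_smul]
  simp only [e1]
  rw [Finset.sum_comm]
  refine Finset.sum_congr rfl fun x _ => ?_
  rw [Finset.sum_comm]
  rw [Finset.sum_eq_single x]
  · rw [← Finset.sum_smul, horth]; simp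
  · intro y _ hyx
    rw [← Finset.sum_smul, horth, if_neg hyx.symm, zero_smul]
  · intro hx; exact absurd (Finset.mem_univ x) hx

theorem lower_total (h : SpinSys s P Z) (hs : 0 < s) (K : Matrix n n ℂ) (hK : K.IsHermitian)
    (β : ℝ) :
    gib K β (∑ x, (P x)ᴴ * P x)
      ≤ 2 * s * (s * Fintype.card L * gib K β 1 - gib K β (∑ x, Z x)) := by
  rw [gib_sum, gib_sum]
  have : ∀ x, gib K β ((P x)ᴴ * P x) ≤ 2 * s * (s * gib K β 1 - gib K β (Z x)) := by
    intro x
    have h1 := gib_le K hK β _ _ ((h.one x).lower hs)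
    rw [gib_smul, gib_sub, gib_smul] at h1
    exact h1
  calc ∑ x, gib K β ((P x)ᴴ * P x) ≤ ∑ x, 2 * s * (s * gib K β 1 - gib K β (Z x)) :=
        Finset.sum_le_sum fun x _ => this x
    _ = 2 * s * (s * Fintype.card L * gib K β 1 - ∑ x, gib K β (Z x)) := by
        rw [← Finset.mul_sum, Finset.sum_sub_distrib]
        simp
        ring_nf
        left; trivial

end Vale.Agent.BlochHeis
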