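import Vale.Agent.BlochHeis.Press

open Matrix Filter Topology
open scoped ComplexOrder

namespace Vale.Agent.BlochHeis

variable {k : ℕ} {S : Fin 3 → Matrix (Fin (k + 1)) (Fin (k + 1)) ℂ}

theorem press_bdd (hS : IsSpin k S) (hk : 0 < k) (β : ℝ) (hβ : 0 < β) (h : ℝ) :
    ∃ C, ∀ N, |finPressure S β h N| ≤ C := by
  obtain ⟨C, hC⟩ := press_zero_bdd hS hk β hβ
  refine ⟨C + |h| * ((k : ℝ) / 2), fun N => ?_⟩
  have h1 := press_subgrad hS β hβ N 0 h
  have h2 := press_subgrad hS β hβ N h 0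
  have h3 := hC N
  rw [abs_le] at h3 ⊢
  have h4 : |(h - 0) * mN S β N 0| ≤ |h| * ((k : ℝ) / 2) := by
    rw [abs_mul, sub_zero]
    exact mul_le_mul_of_nonneg_left (mN_le hS hk β N 0) (abs_nonneg h)
  have h5 : |(0 - h) * mN S β N h| ≤ |h| * ((k : ℝ) / 2) := by
    rw [abs_mul, zero_sub, abs_neg]
    exact mul_le_mul_of_nonneg_left (mN_le hS hk β N h) (abs_nonneg h)
  rw [abs_le] at h4 h5
  constructor <;> linarith [h4.1, h4.2, h5.1, h5.2, h3.1, h3.2]

theorem press_bddU (hS : IsSpin k S) (hk : 0 < k) (β : ℝ) (hβ : 0 < β) (h : ℝ) :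
    IsBoundedUnder (· ≤ ·) atTop (fun N => finPressure S β h N) := by
  obtain ⟨C, hC⟩ := press_bdd hS hk β hβ h
  exact isBoundedUnder_of ⟨C, fun N => (abs_le.mp (hC N)).2⟩

theorem press_cobddU (hS : IsSpin k S) (hk : 0 < k) (β : ℝ) (hβ : 0 < β) (h : ℝ) :
    IsCoboundedUnder (· ≤ ·) atTop (fun N => finPressure S β h N) := by
  obtain ⟨C, hC⟩ := press_bdd hS hk β hβ h
  have : IsBoundedUnder (· ≥ ·) atTop (fun N => finPressure S β h N) :=
    isBoundedUnder_of ⟨-C, fun N => (abs_le.mp (hC N)).1⟩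
  exact this.isCoboundedUnder_le

theorem pressure_convex (hS : IsSpin k S) (hk : 0 < k) (β : ℝ) (hβ : 0 < β) :
    ConvexOn ℝ Set.univ (fun h => pressure S β h) := by
  refine ⟨convex_univ, ?_⟩
  intro x _ y _ a b ha hb hab
  simp only [smul_eq_mul]
  apply le_of_forall_pos_le_add
  intro ε hε
  have hx : ∀ᶠ N in atTop, finPressure S β x N < pressure S β x + ε :=
    eventually_lt_of_limsup_lt (by unfold pressure; linarith) (press_bddU hS hk β hβ x)
  have hy : ∀ᶠ N in atTop, finPressure S β y N < pressure S β y + ε :=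
    eventually_lt_of_limsup_lt (by unfold pressure; linarith) (press_bddU hS hk β hβ y)
  conv_lhs => unfold pressure
  refine limsup_le_of_le (press_cobddU hS hk β hβ _) ?_
  filter_upwards [hx, hy] with N h1 h2
  set z := a * x + b * y with hz
  have s1 := press_subgrad hS β hβ N z x
  have s2 := press_subgrad hS β hβ N z y
  have s3 : finPressure S β z N ≤ a * finPressure S β x N + b * finPressure S β y N := by
    have e : finPressure S β z N = a * (finPressure S β z N + (x - z) * mN S β N z)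
        + b * (finPressure S β z N + (y - z) * mN S β N z) := by
      have hb' : b = 1 - a := by linarith
      rw [hz, hb']; ring
    rw [e]
    exact add_le_add (mul_le_mul_of_nonneg_left s1 ha) (mul_le_mul_of_nonneg_left s2 hb)
  have h1' : a * finPressure S β x N ≤ a * (pressure S β x + ε) :=
    mul_le_mul_of_nonneg_left h1.le ha
  have h2' : b * finPressure S β y N ≤ b * (pressure S β y + ε) :=
    mul_le_mul_of_nonneg_left h2.le hb
  have : a * (pressure S β x + ε) + b * (pressure S β y + ε)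
      = a * pressure S β x + b * pressure S β y + ε := by
    have hb' : b = 1 - a := by linarith
    rw [hb']; ring
  linarith

/-- For each positive field, infinitely many finite-volume magnetisations exceed any number
below the spontaneous magnetisation. -/
theorem freq_mag (hS : IsSpin k S) (hk : 0 < k) (β : ℝ) (hβ : 0 < β) (m h : ℝ) (hh : 0 < h)
    (hm : m < spontMag S β) : ∃ᶠ N in atTop, m < mN S β N h := by
  have hconv := pressure_convex hS hk β hβ
  have h1 : spontMag S β ≤ slope (fun h => pressure S β h) 0 h := by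
    unfold spontMag
    exact hconv.rightDeriv_le_slope_of_mem_interior (by simp) (Set.mem_univ _) hh
  rw [slope_def_field, sub_zero, le_div_iff₀ hh] at h1
  have h2 : m * h < pressure S β h - pressure S β 0 := by
    have := mul_lt_mul_of_pos_right hm hh
    linarith
  obtain ⟨ε, hε, h3⟩ : ∃ ε > 0, m * h + 2 * ε < pressure S β h - pressure S β 0 :=
    ⟨(pressure S β h - pressure S β 0 - m * h) / 4, by linarith, by linarith⟩
  have f1 : ∃ᶠ N in atTop, pressure S β h - ε < finPressure S β h N :=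
    frequently_lt_of_lt_limsup (press_cobddU hS hk β hβ h) (by unfold pressure; linarith)
  have f2 : ∀ᶠ N in atTop, finPressure S β 0 N < pressure S β 0 + ε :=
    eventually_lt_of_limsup_lt (by unfold pressure; linarith) (press_bddU hS hk β hβ 0)
  refine (f1.and_eventually f2).mono ?_
  rintro N ⟨g1, g2⟩
  have g3 := press_subgrad hS β hβ N h 0
  have g4 : m * h < h * mN S β N h := by nlinarith
  have g5 : h * m < h * mN S β N h := by linarith
  exact lt_of_mul_lt_mul_left g5 hh.le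

/-- sum over the Brillouin zone factorises -/
theorem sum_box_exp (N : ℕ) (w b : ℝ) :
    ∑ q : Box N, Real.exp (-w * (∑ j, freq N (q j) ^ 2) - b)
      = Real.exp (-b) * (∑ a : Fin (2 * N + 1), Real.exp (-w * freq N a ^ 2)) ^ 3 := by
  have e1 : ∀ q : Box N, Real.exp (-w * (∑ j, freq N (q j) ^ 2) - b)
      = Real.exp (-b) * ∏ j, Real.exp (-w * freq N (q j) ^ 2) := by
    intro q
    rw [← Real.exp_sum, ← Real.exp_add, Finset.mul_sum]
    congr 1
    ring
  simp only [e1]
  rw [← Finset.mul_sum]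
  congr 1
  have : (∑ a : Fin (2 * N + 1), Real.exp (-w * freq N a ^ 2)) ^ 3
      = ∏ _j : Fin 3, ∑ a : Fin (2 * N + 1), Real.exp (-w * freq N a ^ 2) := by
    rw [Finset.prod_const]; simp
  rw [this, Finset.prod_univ_sum]
  simp

theorem key_ineq_N (hS : IsSpin k S) (hk : 0 < k) (β : ℝ) (hβ : 0 < β) (m h : ℝ) (hh : 0 < h)
    (hm : 0 < m) (N : ℕ) (hN : m < mN S β N h) (J : ℕ) :
    (m / ((k : ℝ) / 2)) * ∑ j ∈ Finset.range J, Real.exp (-(((j + 1 : ℕ) : ℝ) * β * h))
        * (((2 * (N : ℝ) + 1)⁻¹ * ∑ a : Fin (2 * N + 1),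
          Real.exp (-(((j + 1 : ℕ) : ℝ) * β * ((k : ℝ) / 2 * ((k : ℝ) / 2)) / m) * freq N a ^ 2))) ^ 3
      ≤ (k : ℝ) / 2 - m := by
  set s : ℝ := (k : ℝ) / 2 with hs
  have hsp : (0 : ℝ) < s := by rw [hs]; positivity
  have hsys := spinSys_box (N := N) hS
  have hc := card_pos N
  have hz := ZZ_pos hS β N h
  have hle : m * (Fintype.card (Box N) * gib (heis (fun x : Box N => site x (raise S))
      (fun x : Box N => site x (S 2)) (cpl N) h) β 1)
      ≤ gib (heis (fun x : Box N => site x (raise S)) (fun x : Box N => site x (S 2)) (cpl N) h) β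
        (∑ x : Box N, site x (S 2)) := by
    unfold mN at hN
    rw [lt_div_iff₀ (mul_pos hc hz)] at hN
    exact hN.le
  have hf := finvol hsys hsp (cpl N) (cpl_self N) (cpl_nonneg N) h β hh hβ (wave N)
    (wave_orth N) (wave_norm N) (fun q => 2 * ∑ j, freq N (q j) ^ 2) (grad_bound N) m hm hle J
  refine le_trans (le_of_eq ?_) hf
  congr 1
  rw [Finset.sum_comm, Finset.mul_sum]
  refine Finset.sum_congr rfl fun j _ => ?_
  have e1 : ∀ q : Box N, -((j + 1 : ℕ) : ℝ) * (β * (s * s * (2 * ∑ j, freq N (q j) ^ 2) / (2 * m) + h))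
      = -(((j + 1 : ℕ) : ℝ) * β * (s * s) / m) * (∑ j, freq N (q j) ^ 2)
        - ((j + 1 : ℕ) : ℝ) * β * h := by
    intro q
    field_simp
    ring
  rw [Finset.sum_congr rfl (fun q _ => congrArg Real.exp (e1 q)), sum_box_exp, card_box]
  push_cast
  rw [mul_pow, inv_pow]
  ring

theorem key_ineq (hS : IsSpin k S) (hk : 0 < k) (β : ℝ) (hβ : 0 < β) (m : ℝ)
    (hm : 0 < m) (hlt : m < spontMag S β) (J : ℕ) :
    (m / ((k : ℝ) / 2)) * ∑ j ∈ Finset.range J,
        (gf (((j + 1 : ℕ) : ℝ) * β * ((k : ℝ) / 2 * ((k : ℝ) / 2)) / m)) ^ 3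
      ≤ (k : ℝ) / 2 - m := by
  set s : ℝ := (k : ℝ) / 2 with hs
  have hsp : (0 : ℝ) < s := by rw [hs]; positivity
  set w : ℕ → ℝ := fun j => ((j + 1 : ℕ) : ℝ) * β * (s * s) / m with hw
  have hwp : ∀ j, 0 ≤ w j := fun j => by simp only [hw]; positivity
  -- first let N → ∞
  have step : ∀ h : ℝ, 0 < h → (m / s) * ∑ j ∈ Finset.range J,
      Real.exp (-(((j + 1 : ℕ) : ℝ) * β * h)) * (gf (w j)) ^ 3 ≤ s - m := by
    intro h hh
    by_contra hcon
    push Not at hcon
    have hT : Tendsto (fun N : ℕ => (m / s) * ∑ j ∈ Finset.range J,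
        Real.exp (-(((j + 1 : ℕ) : ℝ) * β * h)) * (max (gf (w j) - (2 * (N : ℝ) + 1)⁻¹) 0) ^ 3)
        atTop (𝓝 ((m / s) * ∑ j ∈ Finset.range J,
        Real.exp (-(((j + 1 : ℕ) : ℝ) * β * h)) * (gf (w j)) ^ 3)) := by
      refine Tendsto.const_mul _ (tendsto_finsetSum _ fun j _ => Tendsto.const_mul _ ?_)
      have h0 : Tendsto (fun N : ℕ => (2 * (N : ℝ) + 1)⁻¹) atTop (𝓝 0) := by
        apply tendsto_inv_atTop_zero.comp
        exact tendsto_atTop_add_const_right _ _
          (Tendsto.const_mul_atTop (by norm_num) tendsto_natCast_atTop_atTop)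
      have h1 : Tendsto (fun N : ℕ => max (gf (w j) - (2 * (N : ℝ) + 1)⁻¹) 0) atTop
          (𝓝 (max (gf (w j) - 0) 0)) := (tendsto_const_nhds.sub h0).max tendsto_const_nhds
      rw [sub_zero, max_eq_left (gf_nonneg _)] at h1
      exact h1.pow 3
    have hev := hT.eventually (lt_mem_nhds hcon)
    obtain ⟨N, hN1, hN2⟩ := ((freq_mag hS hk β hβ m h hh hlt).and_eventually hev).exists
    have h3 := key_ineq_N hS hk β hβ m h hh hm N hN1 J
    rw [← hs] at h3
    have h4 : (m / s) * ∑ j ∈ Finset.range J,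
        Real.exp (-(((j + 1 : ℕ) : ℝ) * β * h)) * (max (gf (w j) - (2 * (N : ℝ) + 1)⁻¹) 0) ^ 3
        ≤ (m / s) * ∑ j ∈ Finset.range J, Real.exp (-(((j + 1 : ℕ) : ℝ) * β * h))
        * (((2 * (N : ℝ) + 1)⁻¹ * ∑ a : Fin (2 * N + 1),
          Real.exp (-(((j + 1 : ℕ) : ℝ) * β * (s * s) / m) * freq N a ^ 2))) ^ 3 := by
      refine mul_le_mul_of_nonneg_left (Finset.sum_le_sum fun j _ => ?_) (by positivity)
      refine mul_le_mul_of_nonneg_left ?_ (Real.exp_pos _).le
      refine pow_le_pow_left₀ (le_max_right _ _) (max_le ?_ ?_) 3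
      · exact sum_freq N (w j) (hwp j)
      · exact mul_nonneg (by positivity) (Finset.sum_nonneg fun a _ => (Real.exp_pos _).le)
    linarith
  -- then let h → 0
  have hT : Tendsto (fun h : ℝ => (m / s) * ∑ j ∈ Finset.range J,
      Real.exp (-(((j + 1 : ℕ) : ℝ) * β * h)) * (gf (w j)) ^ 3) (𝓝[>] 0)
      (𝓝 ((m / s) * ∑ j ∈ Finset.range J,
      Real.exp (-(((j + 1 : ℕ) : ℝ) * β * 0)) * (gf (w j)) ^ 3)) := by
    apply Tendsto.mono_left _ nhdsWithin_le_nhds
    apply Continuous.tendsto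
    fun_prop
  simp only [mul_zero, neg_zero, Real.exp_zero, one_mul] at hT
  refine le_of_tendsto hT ?_
  filter_upwards [self_mem_nhdsWithin] with h hh
  exact step h hh

end Vale.Agent.BlochHeis
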