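import Vale.Agent.BlochHeis.Pair

open Matrix
open scoped ComplexOrder

namespace Vale.Agent.BlochHeis

variable {n : Type*} [Fintype n] [DecidableEq n]
variable {L : Type*} [Fintype L] [DecidableEq L]

/-- A family of commuting spins of size `s` -/
structure SpinSys (s : ℝ) (P Z : L → Matrix n n ℂ) : Prop where
  one : ∀ x, Spin1 s (P x) (Z x)
  cZZ : ∀ x y, x ≠ y → Z x * Z y = Z y * Z x
  cZP : ∀ x y, x ≠ y → Z x * P y = P y * Z x
  cPP : ∀ x y, x ≠ y → P x * P y = P y * P x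
  cPQ : ∀ x y, x ≠ y → P x * (P y)ᴴ = (P y)ᴴ * P x

variable {s : ℝ} {P Z : L → Matrix n n ℂ}

theorem SpinSys.cZQ (h : SpinSys s P Z) (x y : L) (hxy : x ≠ y) :
    Z x * (P y)ᴴ = (P y)ᴴ * Z x := by
  have := congrArg conjTranspose (h.cZP x y hxy)
  simpa [conjTranspose_mul, (h.one x).Zh] using this.symm

theorem SpinSys.cQQ (h : SpinSys s P Z) (x y : L) (hxy : x ≠ y) :
    (P x)ᴴ * (P y)ᴴ = (P y)ᴴ * (P x)ᴴ := by
  have := congrArg conjTranspose (h.cPP x y hxy)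
  simpa [conjTranspose_mul] using this.symm

/-- current operator -/
noncomputable def cur (P Z : L → Matrix n n ℂ) (x y : L) : Matrix n n ℂ := Z x * P y - P x * Z y

/-- exchange operator -/
noncomputable def ex (P Z : L → Matrix n n ℂ) (x y : L) : Matrix n n ℂ :=
  exch (P x) (Z x) (P y) (Z y)

theorem SpinSys.ex_x (h : SpinSys s P Z) (x y : L) (hxy : x ≠ y) :
    P x * ex P Z x y - ex P Z x y * P x = cur P Z x y := by
  unfold ex exch cur
  have z1 := (h.one x).ZP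
  have pq := (h.one x).PQ
  have c1 := h.cZP y x hxy.symm
  have c2 := h.cPQ x y hxy
  have c3 := h.cPP x y hxy
  have a1 : Z x * Z y * P x = P x * Z x * Z y + P x * Z y := by
    rw [mul_assoc, c1, ← mul_assoc, z1, add_mul]
  have a2 : P x * (P y)ᴴ * P x = P x * P x * (P y)ᴴ := by rw [mul_assoc, ← c2, mul_assoc]
  have a3 : (P x)ᴴ * P y * P x = P x * (P x)ᴴ * P y - (2 : ℂ) • (Z x * P y) := by
    rw [mul_assoc, ← c3, ← mul_assoc, pq, add_mul, smul_mul_assoc]; abel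
  simp only [add_mul, mul_add, smul_mul_assoc, mul_smul_comm, a1, a2, a3]
  simp only [← mul_assoc]
  module

theorem ex_symm (h : SpinSys s P Z) (x y : L) (hxy : x ≠ y) : ex P Z x y = ex P Z y x := by
  unfold ex exch
  rw [h.cZZ x y hxy, h.cPQ x y hxy, ← h.cPQ y x hxy.symm]
  rw [add_comm (P y * (P x)ᴴ)]

theorem SpinSys.ex_y (h : SpinSys s P Z) (x y : L) (hxy : x ≠ y) :
    P y * ex P Z x y - ex P Z x y * P y = - cur P Z x y := by
  rw [ex_symm h x y hxy, h.ex_x y x hxy.symm]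
  unfold cur
  rw [h.cZP y x hxy.symm, ← h.cZP x y hxy]
  abel

theorem SpinSys.ex_z (h : SpinSys s P Z) (x y z : L) (hzx : z ≠ x) (hzy : z ≠ y) :
    P z * ex P Z x y - ex P Z x y * P z = 0 := by
  unfold ex exch
  have c1 := h.cZP x z hzx.symm
  have c2 := h.cZP y z hzy.symm
  have c3 := h.cPP z x hzx
  have c4 := h.cPP z y hzy
  have c5 := h.cPQ z x hzx
  have c6 := h.cPQ z y hzy
  have a1 : Z x * Z y * P z = P z * Z x * Z y := by rw [mul_assoc, c2, ← mul_assoc, c1]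
  have a2 : P x * (P y)ᴴ * P z = P z * P x * (P y)ᴴ := by
    rw [mul_assoc, ← c6, ← mul_assoc, ← c3]
  have a3 : (P x)ᴴ * P y * P z = P z * (P x)ᴴ * P y := by
    rw [mul_assoc, ← c4, ← mul_assoc, ← c5]
  simp only [add_mul, mul_add, smul_mul_assoc, mul_smul_comm, a1, a2, a3]
  simp only [← mul_assoc]
  module

theorem SpinSys.cur_x (h : SpinSys s P Z) (x y : L) (hxy : x ≠ y) :
    cur P Z x y * (P x)ᴴ - (P x)ᴴ * cur P Z x y
      = - ((P x)ᴴ * P y) - (2 : ℂ) • (Z x * Z y) := by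
  unfold cur
  have zq : Z x * (P x)ᴴ = (P x)ᴴ * Z x - (P x)ᴴ := by
    have := congrArg conjTranspose (h.one x).ZP
    simp only [conjTranspose_mul, conjTranspose_add, (h.one x).Zh] at this
    rw [this]; abel
  have pq := (h.one x).PQ
  have c1 := h.cZQ y x hxy.symm
  have c2 := h.cPQ y x hxy.symm
  have a1 : Z x * P y * (P x)ᴴ = (P x)ᴴ * Z x * P y - (P x)ᴴ * P y := by
    rw [mul_assoc, c2, ← mul_assoc, zq, sub_mul]
  have a2 : P x * Z y * (P x)ᴴ = (P x)ᴴ * P x * Z y + (2 : ℂ) • (Z x * Z y) := by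
    rw [mul_assoc, c1, ← mul_assoc, pq, add_mul, smul_mul_assoc]
  simp only [sub_mul, mul_sub, a1, a2]
  simp only [← mul_assoc]
  module

theorem SpinSys.cur_y (h : SpinSys s P Z) (x y : L) (hxy : x ≠ y) :
    cur P Z x y * (P y)ᴴ - (P y)ᴴ * cur P Z x y
      = P x * (P y)ᴴ + (2 : ℂ) • (Z x * Z y) := by
  unfold cur
  have zq : Z y * (P y)ᴴ = (P y)ᴴ * Z y - (P y)ᴴ := by
    have := congrArg conjTranspose (h.one y).ZP
    simp only [conjTranspose_mul, conjTranspose_add, (h.one y).Zh] at this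
    rw [this]; abel
  have pq := (h.one y).PQ
  have c1 := h.cZQ x y hxy
  have c2 := h.cPQ x y hxy
  have a1 : Z x * P y * (P y)ᴴ = (P y)ᴴ * Z x * P y + (2 : ℂ) • (Z x * Z y) := by
    rw [mul_assoc, pq, mul_add, ← mul_assoc, c1, mul_smul_comm]
  have a2 : P x * Z y * (P y)ᴴ = (P y)ᴴ * P x * Z y - P x * (P y)ᴴ := by
    rw [mul_assoc, zq, mul_sub, ← mul_assoc, c2]
  simp only [sub_mul, mul_sub, a1, a2]
  simp only [← mul_assoc]
  module

theorem SpinSys.cur_z (h : SpinSys s P Z) (x y z : L) (hzx : z ≠ x) (hzy : z ≠ y) :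
    cur P Z x y * (P z)ᴴ - (P z)ᴴ * cur P Z x y = 0 := by
  unfold cur
  have c1 := h.cZQ x z hzx.symm
  have c2 := h.cZQ y z hzy.symm
  have c3 := h.cPQ x z hzx.symm
  have c4 := h.cPQ y z hzy.symm
  have a1 : Z x * P y * (P z)ᴴ = (P z)ᴴ * Z x * P y := by rw [mul_assoc, c4, ← mul_assoc, c1]
  have a2 : P x * Z y * (P z)ᴴ = (P z)ᴴ * P x * Z y := by rw [mul_assoc, c2, ← mul_assoc, c3]
  simp only [sub_mul, mul_sub, a1, a2]
  simp only [← mul_assoc]
  module

/-- the mode operator `∑ φ x • P x` -/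
noncomputable def mode (P : L → Matrix n n ℂ) (φ : L → ℂ) : Matrix n n ℂ := ∑ x, φ x • P x

theorem mode_conjTranspose (P : L → Matrix n n ℂ) (φ : L → ℂ) :
    (mode P φ)ᴴ = ∑ x, star (φ x) • (P x)ᴴ := by
  unfold mode
  rw [conjTranspose_sum]
  exact Finset.sum_congr rfl fun x _ => by rw [conjTranspose_smul]

theorem mode_ex (h : SpinSys s P Z) (φ : L → ℂ) (x y : L) (hxy : x ≠ y) :
    mode P φ * ex P Z x y - ex P Z x y * mode P φ = (φ x - φ y) • cur P Z x y := by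
  unfold mode
  rw [Finset.sum_mul, Finset.mul_sum, ← Finset.sum_sub_distrib]
  rw [Finset.sum_eq_add x y hxy]
  · rw [smul_mul_assoc, mul_smul_comm, ← smul_sub, h.ex_x x y hxy, smul_mul_assoc, mul_smul_comm,
      ← smul_sub, h.ex_y x y hxy]
    module
  · rintro z - ⟨hzx, hzy⟩
    rw [smul_mul_assoc, mul_smul_comm, ← smul_sub, h.ex_z x y z hzx hzy, smul_zero]
  · intro hx; exact absurd (Finset.mem_univ x) hx
  · intro hx; exact absurd (Finset.mem_univ y) hx

theorem cur_mode (h : SpinSys s P Z) (φ : L → ℂ) (x y : L) (hxy : x ≠ y) :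
    cur P Z x y * (mode P φ)ᴴ - (mode P φ)ᴴ * cur P Z x y
      = star (φ x) • (- ((P x)ᴴ * P y) - (2 : ℂ) • (Z x * Z y))
        + star (φ y) • (P x * (P y)ᴴ + (2 : ℂ) • (Z x * Z y)) := by
  rw [mode_conjTranspose]
  rw [Finset.sum_mul, Finset.mul_sum, ← Finset.sum_sub_distrib]
  rw [Finset.sum_eq_add x y hxy]
  · rw [smul_mul_assoc, mul_smul_comm, ← smul_sub, h.cur_x x y hxy, smul_mul_assoc, mul_smul_comm,
      ← smul_sub, h.cur_y x y hxy]
  · rintro z - ⟨hzx, hzy⟩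
    rw [smul_mul_assoc, mul_smul_comm, ← smul_sub, h.cur_z x y z hzx hzy, smul_zero]
  · intro hx; exact absurd (Finset.mem_univ x) hx
  · intro hx; exact absurd (Finset.mem_univ y) hx

theorem mode_mode (h : SpinSys s P Z) (φ : L → ℂ) :
    mode P φ * (mode P φ)ᴴ - (mode P φ)ᴴ * mode P φ
      = ∑ x, ((2 : ℂ) * (φ x * star (φ x))) • Z x := by
  rw [mode_conjTranspose]
  unfold mode
  rw [Finset.sum_mul_sum, Finset.sum_mul_sum, Finset.sum_comm (γ := L)
    (f := fun i j => star (φ i) • (P i)ᴴ * φ j • P j), ← Finset.sum_sub_distrib]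
  refine Finset.sum_congr rfl fun x _ => ?_
  rw [← Finset.sum_sub_distrib, Finset.sum_eq_single x]
  · rw [smul_mul_assoc, mul_smul_comm, smul_mul_assoc, mul_smul_comm, (h.one x).PQ]
    module
  · intro y _ hyx
    rw [smul_mul_assoc, mul_smul_comm, smul_mul_assoc, mul_smul_comm, h.cPQ x y hyx.symm]
    module
  · intro hx; exact absurd (Finset.mem_univ x) hx

/-- Heisenberg Hamiltonian with symmetric couplings in a field -/
noncomputable def heis (P Z : L → Matrix n n ℂ) (c : L → L → ℝ) (hh : ℝ) : Matrix n n ℂ :=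
  -((2⁻¹ : ℂ) • ∑ x, ∑ y, (c x y : ℂ) • ex P Z x y) - (hh : ℂ) • ∑ x, Z x

theorem mode_heis (h : SpinSys s P Z) (c : L → L → ℝ) (c0 : ∀ x, c x x = 0) (hh : ℝ) (φ : L → ℂ) :
    mode P φ * heis P Z c hh - heis P Z c hh * mode P φ
      = -((2⁻¹ : ℂ) • ∑ x, ∑ y, ((c x y : ℂ) * (φ x - φ y)) • cur P Z x y)
        + (hh : ℂ) • mode P φ := by
  have e1 : mode P φ * (∑ x, ∑ y, (c x y : ℂ) • ex P Z x y)
      - (∑ x, ∑ y, (c x y : ℂ) • ex P Z x y) * mode P φ
      = ∑ x, ∑ y, ((c x y : ℂ) * (φ x - φ y)) • cur P Z x y := by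
    rw [Finset.mul_sum, Finset.sum_mul, ← Finset.sum_sub_distrib]
    refine Finset.sum_congr rfl fun x _ => ?_
    rw [Finset.mul_sum, Finset.sum_mul, ← Finset.sum_sub_distrib]
    refine Finset.sum_congr rfl fun y _ => ?_
    by_cases hxy : x = y
    · subst hxy; simp [c0]
    · rw [mul_smul_comm, smul_mul_assoc, ← smul_sub, mode_ex h φ x y hxy, smul_smul]
  have e2 : mode P φ * (∑ x, Z x) - (∑ x, Z x) * mode P φ = - mode P φ := by
    unfold mode
    rw [Finset.sum_mul_sum, Finset.sum_mul_sum, Finset.sum_comm (γ := L)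
      (f := fun i j => Z i * φ j • P j), ← Finset.sum_sub_distrib, ← Finset.sum_neg_distrib]
    refine Finset.sum_congr rfl fun x _ => ?_
    rw [← Finset.sum_sub_distrib, Finset.sum_eq_single x]
    · rw [smul_mul_assoc, mul_smul_comm, (h.one x).ZP]
      module
    · intro y _ hyx
      rw [smul_mul_assoc, mul_smul_comm, h.cZP y x hyx]
      module
    · intro hx; exact absurd (Finset.mem_univ x) hx
  have : mode P φ * heis P Z c hh - heis P Z c hh * mode P φ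
      = -((2⁻¹ : ℂ) • (mode P φ * (∑ x, ∑ y, (c x y : ℂ) • ex P Z x y)
        - (∑ x, ∑ y, (c x y : ℂ) • ex P Z x y) * mode P φ))
        - (hh : ℂ) • (mode P φ * (∑ x, Z x) - (∑ x, Z x) * mode P φ) := by
    unfold heis
    simp only [mul_sub, sub_mul, mul_neg, neg_mul, mul_smul_comm, smul_mul_assoc, smul_sub]
    abel
  rw [this, e1, e2]
  module

/-- the double commutator -/
noncomputable def dcomm (A K : Matrix n n ℂ) : Matrix n n ℂ :=
  (A * K - K * A) * Aᴴ - Aᴴ * (A * K - K * A)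

theorem dcomm_heis (h : SpinSys s P Z) (c : L → L → ℝ) (c0 : ∀ x, c x x = 0) (hh : ℝ) (φ : L → ℂ) :
    dcomm (mode P φ) (heis P Z c hh)
      = (∑ x, ∑ y, (-(2⁻¹ : ℂ) * ((c x y : ℂ) * (φ x - φ y))) •
          (star (φ x) • (- ((P x)ᴴ * P y) - (2 : ℂ) • (Z x * Z y))
        + star (φ y) • (P x * (P y)ᴴ + (2 : ℂ) • (Z x * Z y))))
        + (hh : ℂ) • ∑ x, ((2 : ℂ) * (φ x * star (φ x))) • Z x := by
  unfold dcomm
  rw [mode_heis h c c0]
  have e1 : (∑ x, ∑ y, ((c x y : ℂ) * (φ x - φ y)) • cur P Z x y) * (mode P φ)ᴴ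
      - (mode P φ)ᴴ * (∑ x, ∑ y, ((c x y : ℂ) * (φ x - φ y)) • cur P Z x y)
      = ∑ x, ∑ y, ((c x y : ℂ) * (φ x - φ y)) •
          (star (φ x) • (- ((P x)ᴴ * P y) - (2 : ℂ) • (Z x * Z y))
        + star (φ y) • (P x * (P y)ᴴ + (2 : ℂ) • (Z x * Z y))) := by
    rw [Finset.mul_sum, Finset.sum_mul, ← Finset.sum_sub_distrib]
    refine Finset.sum_congr rfl fun x _ => ?_
    rw [Finset.mul_sum, Finset.sum_mul, ← Finset.sum_sub_distrib]
    refine Finset.sum_congr rfl fun y _ => ?_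
    by_cases hxy : x = y
    · subst hxy; simp [c0]
    · rw [mul_smul_comm, smul_mul_assoc, ← smul_sub, cur_mode h φ x y hxy]
  have e2 := mode_mode h φ
  have e3 : (-((2⁻¹ : ℂ) • ∑ x, ∑ y, ((c x y : ℂ) * (φ x - φ y)) • cur P Z x y)
        + (hh : ℂ) • mode P φ) * (mode P φ)ᴴ
      - (mode P φ)ᴴ * (-((2⁻¹ : ℂ) • ∑ x, ∑ y, ((c x y : ℂ) * (φ x - φ y)) • cur P Z x y)
        + (hh : ℂ) • mode P φ)
      = -((2⁻¹ : ℂ) • ((∑ x, ∑ y, ((c x y : ℂ) * (φ x - φ y)) • cur P Z x y) * (mode P φ)ᴴ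
      - (mode P φ)ᴴ * (∑ x, ∑ y, ((c x y : ℂ) * (φ x - φ y)) • cur P Z x y)))
        + (hh : ℂ) • (mode P φ * (mode P φ)ᴴ - (mode P φ)ᴴ * mode P φ) := by
    simp only [add_mul, mul_add, neg_mul, mul_neg, smul_mul_assoc, mul_smul_comm, smul_sub]
    abel
  rw [e3, e1, e2]
  congr 1
  rw [← neg_smul, Finset.smul_sum]
  refine Finset.sum_congr rfl fun x _ => ?_
  rw [Finset.smul_sum]
  refine Finset.sum_congr rfl fun y _ => ?_
  rw [smul_smul]

/-- Sum of the double commutators of a mode and of its complex conjugate mode. -/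
theorem dcomm_pair (h : SpinSys s P Z) (c : L → L → ℝ) (c0 : ∀ x, c x x = 0) (hh : ℝ) (φ : L → ℂ)
    (r : ℝ) (hr : ∀ x, φ x * star (φ x) = (r : ℂ)) :
    dcomm (mode P φ) (heis P Z c hh) + dcomm (mode P (fun x => star (φ x))) (heis P Z c hh)
      = (∑ x, ∑ y, ((c x y * Complex.normSq (φ x - φ y) : ℝ) : ℂ) • (Z x * Z y + ex P Z x y))
        + ((4 * hh * r : ℝ) : ℂ) • ∑ x, Z x := by
  rw [dcomm_heis h c c0, dcomm_heis h c c0]
  have e1 : ∀ x y, (-(2⁻¹ : ℂ) * ((c x y : ℂ) * (φ x - φ y))) •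
          (star (φ x) • (- ((P x)ᴴ * P y) - (2 : ℂ) • (Z x * Z y))
        + star (φ y) • (P x * (P y)ᴴ + (2 : ℂ) • (Z x * Z y)))
      + (-(2⁻¹ : ℂ) * ((c x y : ℂ) * (star (φ x) - star (φ y)))) •
          (star (star (φ x)) • (- ((P x)ᴴ * P y) - (2 : ℂ) • (Z x * Z y))
        + star (star (φ y)) • (P x * (P y)ᴴ + (2 : ℂ) • (Z x * Z y)))
      = ((c x y * Complex.normSq (φ x - φ y) : ℝ) : ℂ) • (Z x * Z y + ex P Z x y) := by
    intro x y
    have hn : ((Complex.normSq (φ x - φ y) : ℝ) : ℂ) = (φ x - φ y) * (star (φ x) - star (φ y)) := by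
      rw [← Complex.mul_conj]; simp
    have hx := hr x
    have hy := hr y
    unfold ex exch
    rw [star_star, star_star, Complex.ofReal_mul, hn]
    set a := φ x
    set b := φ y
    set a' := star a
    set b' := star b
    have i1 : (-(2⁻¹ : ℂ) * ((c x y : ℂ) * (a - b))) •
          (a' • (- ((P x)ᴴ * P y) - (2 : ℂ) • (Z x * Z y))
        + b' • (P x * (P y)ᴴ + (2 : ℂ) • (Z x * Z y)))
      + (-(2⁻¹ : ℂ) * ((c x y : ℂ) * (a' - b'))) •
          (a • (- ((P x)ᴴ * P y) - (2 : ℂ) • (Z x * Z y))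
        + b • (P x * (P y)ᴴ + (2 : ℂ) • (Z x * Z y)))
        = (2 * ((c x y : ℂ) * ((a - b) * (a' - b')))) • (Z x * Z y)
          + ((2⁻¹ : ℂ) * (c x y : ℂ) * (2 * (a * a') - b * a' - b' * a)) • ((P x)ᴴ * P y)
          + ((2⁻¹ : ℂ) * (c x y : ℂ) * (2 * (b * b') - b * a' - b' * a)) • (P x * (P y)ᴴ) := by
      module
    rw [i1]
    have i2 : 2 * (a * a') - b * a' - b' * a = (a - b) * (a' - b') := by
      linear_combination hx - hy
    have i3 : 2 * (b * b') - b * a' - b' * a = (a - b) * (a' - b') := by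
      linear_combination hy - hx
    rw [i2, i3]
    module
  have e2 : ∀ x, (hh : ℂ) • (((2 : ℂ) * (φ x * star (φ x))) • Z x)
      + (hh : ℂ) • (((2 : ℂ) * (star (φ x) * star (star (φ x)))) • Z x)
      = ((4 * hh * r : ℝ) : ℂ) • Z x := by
    intro x
    have hx := hr x
    rw [star_star, mul_comm (star (φ x)) (φ x), hx]
    push_cast
    module
  have e3 : ∀ (a b c d : Matrix n n ℂ), a + b + (c + d) = (a + c) + (b + d) := by
    intro a b c d; abel
  rw [e3]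
  congr 1
  · rw [← Finset.sum_add_distrib]
    refine Finset.sum_congr rfl fun x _ => ?_
    rw [← Finset.sum_add_distrib]
    refine Finset.sum_congr rfl fun y _ => ?_
    exact e1 x y
  · rw [Finset.smul_sum, Finset.smul_sum, Finset.smul_sum, ← Finset.sum_add_distrib]
    refine Finset.sum_congr rfl fun x _ => ?_
    exact e2 x

end Vale.Agent.BlochHeis
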