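import Vale.Agent.BlochHeis.Single

open Matrix
open scoped ComplexOrder

namespace Vale.Agent.BlochHeis

variable {n : Type*} [Fintype n] [DecidableEq n]

theorem sq_of_bounds {a : ℝ} (ha : 0 < a) {X : Matrix n n ℂ} (hX : Xᴴ = X)
    (h1 : ((a : ℂ) • (1 : Matrix n n ℂ) - X).PosSemidef)
    (h2 : ((a : ℂ) • (1 : Matrix n n ℂ) + X).PosSemidef) :
    (((a : ℂ) * a) • (1 : Matrix n n ℂ) - X * X).PosSemidef := by
  apply psd_of_smul (c := 2 * a) (by linarith)
  have hH : ((a : ℂ) • (1 : Matrix n n ℂ) - X)ᴴ = (a : ℂ) • (1 : Matrix n n ℂ) - X := by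
    simp [hX]
  have hH2 : ((a : ℂ) • (1 : Matrix n n ℂ) + X)ᴴ = (a : ℂ) • (1 : Matrix n n ℂ) + X := by
    simp [hX]
  have e : ((2 * a : ℝ) : ℂ) • (((a : ℂ) * a) • (1 : Matrix n n ℂ) - X * X)
      = ((a : ℂ) • (1 : Matrix n n ℂ) - X)ᴴ * ((a : ℂ) • (1 : Matrix n n ℂ) + X)
          * ((a : ℂ) • (1 : Matrix n n ℂ) - X)
        + ((a : ℂ) • (1 : Matrix n n ℂ) + X)ᴴ * ((a : ℂ) • (1 : Matrix n n ℂ) - X)
          * ((a : ℂ) • (1 : Matrix n n ℂ) + X) := by
    rw [hH, hH2]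
    simp only [add_mul, mul_add, sub_mul, mul_sub, smul_mul_assoc, mul_smul_comm, mul_one, one_mul,
      smul_sub, smul_smul, mul_assoc]
    push_cast
    module
  rw [e]
  exact (h2.conjTranspose_mul_mul_same _).add (h1.conjTranspose_mul_mul_same _)

/-- existence of a top eigenvector -/
theorem exists_top (M : Matrix n n ℂ) (hM : M.IsHermitian) [Nonempty n] :
    ∃ (l : ℝ) (v : n → ℂ), v ≠ 0 ∧ M *ᵥ v = (l : ℂ) • v ∧
      ((l : ℂ) • (1 : Matrix n n ℂ) - M).PosSemidef := by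
  obtain ⟨U, E, hU1, hU2, hMd, -⟩ := exists_diag M hM
  obtain ⟨i, -, hi⟩ := Finset.exists_max_image Finset.univ E Finset.univ_nonempty
  refine ⟨E i, U *ᵥ Pi.single i 1, ?_, ?_, ?_⟩
  · intro h0
    have h1 : Uᴴ *ᵥ (U *ᵥ (Pi.single i (1 : ℂ))) = 0 := by rw [h0]; simp
    rw [Matrix.mulVec_mulVec, hU2, Matrix.one_mulVec] at h1
    have := congrFun h1 i
    simp at this
  · conv_lhs => rw [hMd]
    rw [Matrix.mulVec_mulVec, Matrix.mul_assoc, hU2, Matrix.mul_one, ← Matrix.mulVec_mulVec]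
    have : (diagonal (fun i => (E i : ℂ))) *ᵥ (Pi.single i (1 : ℂ)) = (E i : ℂ) • Pi.single i 1 := by
      ext j
      rw [Matrix.mulVec_diagonal]
      by_cases hj : j = i
      · subst hj; simp
      · simp [Pi.single_eq_of_ne hj]
    rw [this, Matrix.mulVec_smul]
  · have e : ((E i : ℝ) : ℂ) • (1 : Matrix n n ℂ) - M
        = U * diagonal (fun j => (((E i - E j : ℝ)) : ℂ)) * Uᴴ := by
      have e1 : diagonal (fun j => (((E i - E j : ℝ)) : ℂ))
          = ((E i : ℝ) : ℂ) • (1 : Matrix n n ℂ) - diagonal (fun j => ((E j : ℝ) : ℂ)) := by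
        ext a b
        by_cases hab : a = b
        · subst hab; simp
        · simp [hab]
      rw [e1, Matrix.mul_sub, Matrix.sub_mul, ← hMd]
      simp [hU1]
    rw [e]
    apply PosSemidef.mul_mul_conjTranspose_same
    rw [posSemidef_diagonal_iff]
    intro j
    have := hi j (Finset.mem_univ _)
    have h2 : (0 : ℝ) ≤ E i - E j := by linarith
    exact_mod_cast h2

variable {s : ℝ} {P1 Z1 P2 Z2 : Matrix n n ℂ}

/-- the exchange operator of two commuting spins -/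
noncomputable def exch (P1 Z1 P2 Z2 : Matrix n n ℂ) : Matrix n n ℂ :=
  Z1 * Z2 + (2⁻¹ : ℂ) • (P1 * P2ᴴ + P1ᴴ * P2)

theorem exch_le (hs : 0 < s) (h1 : Spin1 s P1 Z1) (h2 : Spin1 s P2 Z2)
    (cZZ : Z1 * Z2 = Z2 * Z1) (cZP : Z1 * P2 = P2 * Z1) (cPZ : P1 * Z2 = Z2 * P1)
    (cPP : P1 * P2 = P2 * P1) (cPQ : P1 * P2ᴴ = P2ᴴ * P1) :
    (((s : ℂ) * s) • (1 : Matrix n n ℂ) - exch P1 Z1 P2 Z2).PosSemidef := by
  rcases isEmpty_or_nonempty n with hn | hn
  · refine PosSemidef.of_dotProduct_mulVec_nonneg ?_ ?_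
    · ext i; exact hn.elim i
    · intro x; simp
  have cQP : P1ᴴ * P2 = P2 * P1ᴴ := by
    have := congrArg conjTranspose cPQ
    simpa [conjTranspose_mul] using this.symm
  have cZQ : Z1 * P2ᴴ = P2ᴴ * Z1 := by
    have := congrArg conjTranspose cZP
    simpa [conjTranspose_mul, h1.Zh] using this.symm
  have cQZ : P1ᴴ * Z2 = Z2 * P1ᴴ := by
    have := congrArg conjTranspose cPZ
    simpa [conjTranspose_mul, h2.Zh] using this.symm
  set K := exch P1 Z1 P2 Z2 with hK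
  have hKh : Kᴴ = K := by
    rw [hK]; unfold exch
    simp only [conjTranspose_add, conjTranspose_mul, conjTranspose_smul, h1.Zh, h2.Zh,
      conjTranspose_conjTranspose, ← cZZ, cPQ]
    simp [add_comm]
  have hJh : (Z1 + Z2)ᴴ = Z1 + Z2 := by simp [h1.Zh, h2.Zh]
  -- Casimir
  have cas : (P1 + P2)ᴴ * (P1 + P2) = ((2 : ℂ) * (s * (s + 1))) • (1 : Matrix n n ℂ)
      + (2 : ℂ) • K - (Z1 + Z2) * (Z1 + Z2) - (Z1 + Z2) := by
    rw [hK]; unfold exch
    simp only [conjTranspose_add, add_mul, mul_add, h1.cas, h2.cas, cPQ, cZZ]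
    module
  -- K commutes with the total raising operator
  have comm : K * (P1 + P2) = (P1 + P2) * K := by
    rw [hK]; unfold exch
    have a1 : Z1 * Z2 * P1 = P1 * Z1 * Z2 + P1 * Z2 := by
      rw [mul_assoc, ← cPZ, ← mul_assoc, h1.ZP, add_mul]
    have a2 : Z1 * Z2 * P2 = P2 * Z1 * Z2 + P2 * Z1 := by
      rw [mul_assoc, h2.ZP, mul_add, cZP, ← mul_assoc, cZP]
    have a3 : P1 * P2ᴴ * P1 = P1 * P1 * P2ᴴ := by rw [mul_assoc, ← cPQ, mul_assoc]
    have a4 : P1ᴴ * P2 * P1 = P1 * P1ᴴ * P2 - (2 : ℂ) • (Z1 * P2) := by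
      rw [mul_assoc, ← cPP, ← mul_assoc, h1.PQ, add_mul, smul_mul_assoc]; abel
    have a5 : P1 * P2ᴴ * P2 = P2 * P1 * P2ᴴ - (2 : ℂ) • (P1 * Z2) := by
      rw [← cPP, mul_assoc P1 P2, h2.PQ, mul_add, mul_assoc, mul_smul_comm]; abel
    have a6 : P1ᴴ * P2 * P2 = P2 * P1ᴴ * P2 := by rw [cQP]
    simp only [add_mul, mul_add, smul_mul_assoc, mul_smul_comm, a1, a2, a3, a4, a5, a6]
    simp only [← mul_assoc, cZP, cPZ]
    module
  have hZJ : (Z1 + Z2) * (P1 + P2) = (P1 + P2) * (Z1 + Z2) + (P1 + P2) := by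
    simp only [add_mul, mul_add, h1.ZP, h2.ZP, cZP, cPZ]
    abel
  have up : (((2 * s : ℝ) : ℂ) • (1 : Matrix n n ℂ) - (Z1 + Z2)).PosSemidef := by
    have := (h1.up hs).add (h2.up hs)
    convert this using 1
    push_cast; module
  have down : (((2 * s : ℝ) : ℂ) • (1 : Matrix n n ℂ) + (Z1 + Z2)).PosSemidef := by
    have := (h1.down hs).add (h2.down hs)
    convert this using 1
    push_cast; module
  have sq := sq_of_bounds (a := 2 * s) (by linarith) hJh up down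
  -- main estimate with a small field
  have main : ∀ ε : ℝ, 0 < ε →
      (((s * s + 4 * s * ε : ℝ) : ℂ) • (1 : Matrix n n ℂ) - K).PosSemidef := by
    intro ε hε
    set M := K + (ε : ℂ) • (Z1 + Z2) with hM
    have hMh : M.IsHermitian := by
      unfold IsHermitian
      rw [hM, conjTranspose_add, conjTranspose_smul, hKh, hJh]
      simp
    obtain ⟨l, v, hv0, hv, hpsd⟩ := exists_top M hMh
    -- the raising operator kills v
    have hraise : M *ᵥ ((P1 + P2) *ᵥ v) = ((l + ε : ℝ) : ℂ) • ((P1 + P2) *ᵥ v) := by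
      have : M * (P1 + P2) = (P1 + P2) * M + (ε : ℂ) • (P1 + P2) := by
        rw [hM, add_mul K, mul_add _ K, comm, smul_mul_assoc, hZJ, mul_smul_comm, smul_add]
        abel
      rw [Matrix.mulVec_mulVec, this, Matrix.add_mulVec, ← Matrix.mulVec_mulVec, hv,
        Matrix.mulVec_smul, Matrix.smul_mulVec]
      push_cast
      rw [add_smul]
    have hkill : (P1 + P2) *ᵥ v = 0 := by
      by_contra hne
      have hpos : 0 < star ((P1 + P2) *ᵥ v) ⬝ᵥ ((P1 + P2) *ᵥ v) :=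
        dotProduct_star_self_pos_iff.mpr hne
      have h3 := hpsd.dotProduct_mulVec_nonneg ((P1 + P2) *ᵥ v)
      rw [Matrix.sub_mulVec, Matrix.smul_mulVec, Matrix.one_mulVec, hraise, ← sub_smul,
        dotProduct_smul, smul_eq_mul] at h3
      have h4 : (l : ℂ) - ((l + ε : ℝ) : ℂ) = ((-ε : ℝ) : ℂ) := by push_cast; ring
      rw [h4] at h3
      have h5 : ((-ε : ℝ) : ℂ) < 0 := by
        have : (-ε : ℝ) < 0 := by linarith
        exact_mod_cast this
      exact absurd h3 (not_le_of_gt (mul_neg_of_neg_of_pos h5 hpos))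
    have hpos : 0 < star v ⬝ᵥ v := dotProduct_star_self_pos_iff.mpr hv0
    -- evaluate K on v
    have hKv : (2 : ℂ) * (star v ⬝ᵥ (K *ᵥ v)) = star v ⬝ᵥ (((Z1 + Z2) * (Z1 + Z2)) *ᵥ v)
        + star v ⬝ᵥ ((Z1 + Z2) *ᵥ v) - (2 * (s * (s + 1)) : ℂ) * (star v ⬝ᵥ v) := by
      have h6 : ((P1 + P2)ᴴ * (P1 + P2)) *ᵥ v = 0 := by
        rw [← Matrix.mulVec_mulVec, hkill]; simp
      rw [cas] at h6
      have h7 := congrArg (fun w => star v ⬝ᵥ w) h6
      simp only [Matrix.sub_mulVec, Matrix.add_mulVec, Matrix.smul_mulVec, Matrix.one_mulVec,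
        dotProduct_sub, dotProduct_add, dotProduct_smul, smul_eq_mul, dotProduct_zero] at h7 ⊢
      linear_combination h7
    have i1 := sq.dotProduct_mulVec_nonneg v
    have i2 := up.dotProduct_mulVec_nonneg v
    have hMv : (l : ℂ) * (star v ⬝ᵥ v) = star v ⬝ᵥ (K *ᵥ v)
        + (ε : ℂ) * (star v ⬝ᵥ ((Z1 + Z2) *ᵥ v)) := by
      have h8 := congrArg (fun w => star v ⬝ᵥ w) hv
      rw [hM] at h8
      simp only [Matrix.add_mulVec, Matrix.smul_mulVec, dotProduct_smul, smul_eq_mul,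
        dotProduct_add] at h8 ⊢
      linear_combination -h8
    simp only [Matrix.sub_mulVec, Matrix.smul_mulVec, Matrix.one_mulVec, dotProduct_sub,
      dotProduct_smul, smul_eq_mul] at i1 i2
    have hl : l ≤ s * s + 2 * s * ε := by
      set N := star v ⬝ᵥ v with hN
      set a := star v ⬝ᵥ (((Z1 + Z2) * (Z1 + Z2)) *ᵥ v) with ha
      set b := star v ⬝ᵥ ((Z1 + Z2) *ᵥ v) with hb
      set k := star v ⬝ᵥ (K *ᵥ v) with hk
      have rN : 0 < N.re := (Complex.lt_def.mp hpos).1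
      have iN : N.im = 0 := ((Complex.lt_def.mp hpos).2).symm
      have r1 := (Complex.le_def.mp i1).1
      have r2 := (Complex.le_def.mp i2).1
      have r3 := congrArg Complex.re hKv
      have r4 := congrArg Complex.re hMv
      simp [iN] at r1 r2 r3 r4
      have : l * N.re ≤ (s * s + 2 * s * ε) * N.re := by nlinarith
      exact le_of_mul_le_mul_right this rN
    have e : ((s * s + 4 * s * ε : ℝ) : ℂ) • (1 : Matrix n n ℂ) - K
        = ((l : ℂ) • (1 : Matrix n n ℂ) - M)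
          + ((s * s + 2 * s * ε - l : ℝ) : ℂ) • (1 : Matrix n n ℂ)
          + (ε : ℂ) • (((2 * s : ℝ) : ℂ) • (1 : Matrix n n ℂ) + (Z1 + Z2)) := by
      rw [hM]
      push_cast
      module
    rw [e]
    exact (hpsd.add (psd_smul (by linarith) PosSemidef.one)).add (psd_smul hε.le down)
  -- let ε → 0
  refine PosSemidef.of_dotProduct_mulVec_nonneg ?_ ?_
  · unfold IsHermitian
    simp [hKh]
  intro x
  have hall : ∀ ε : ℝ, 0 < ε → 0 ≤ (star x ⬝ᵥ ((((s : ℂ) * s) • (1 : Matrix n n ℂ) - K) *ᵥ x)).re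
      + ε * (4 * s * (star x ⬝ᵥ x).re) := by
    intro ε hε
    have h := (Complex.le_def.mp ((main ε hε).dotProduct_mulVec_nonneg x)).1
    simp only [Matrix.sub_mulVec, Matrix.smul_mulVec, Matrix.one_mulVec, dotProduct_sub,
      dotProduct_smul, smul_eq_mul] at h ⊢
    have hx : (star x ⬝ᵥ x).im = 0 := by
      have : 0 ≤ star x ⬝ᵥ x := dotProduct_star_self_nonneg x
      exact ((Complex.le_def.mp this).2).symm
    simp [hx] at h ⊢
    nlinarith
  have hre : 0 ≤ (star x ⬝ᵥ ((((s : ℂ) * s) • (1 : Matrix n n ℂ) - K) *ᵥ x)).re := by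
    set A := (star x ⬝ᵥ ((((s : ℂ) * s) • (1 : Matrix n n ℂ) - K) *ᵥ x)).re with hA
    set B := 4 * s * (star x ⬝ᵥ x).re with hB
    have hB0 : 0 ≤ B := by
      have : 0 ≤ star x ⬝ᵥ x := dotProduct_star_self_nonneg x
      have := (Complex.le_def.mp this).1
      simp only [Complex.zero_re] at this
      positivity
    by_contra hneg
    push Not at hneg
    have := hall (-A / (2 * (B + 1))) (div_pos (by linarith) (by linarith))
    have h9 : -A / (2 * (B + 1)) * B ≤ -A / 2 := by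
      rw [div_mul_eq_mul_div, div_le_div_iff₀ (by linarith) (by norm_num)]
      nlinarith
    linarith
  have him : (star x ⬝ᵥ ((((s : ℂ) * s) • (1 : Matrix n n ℂ) - K) *ᵥ x)).im = 0 := by
    have hH : (((s : ℂ) * s) • (1 : Matrix n n ℂ) - K).IsHermitian := by
      unfold IsHermitian
      simp [hKh]
    have := hH.im_star_dotProduct_mulVec_self x
    simpa using this
  rw [Complex.le_def]
  exact ⟨by simpa using hre, by simpa using him.symm⟩

end Vale.Agent.BlochHeis
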