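import Vale.Agent.BlochHeis.Bogo

open Matrix NormedSpace
open scoped ComplexOrder

namespace Vale.Agent.BlochHeis

variable {n : Type*} [Fintype n] [DecidableEq n]

/-- Peierls: the diagonal entries of `exp C` dominate `exp` of the diagonal entries. -/
theorem peierls_entry (C : Matrix n n ℂ) (hC : C.IsHermitian) (i : n) :
    Real.exp ((C i i).re) ≤ (exp C i i).re := by
  obtain ⟨W, c, hW1, hW2, hCd, hexp⟩ := exists_diag C hC
  have h1 := hexp 1
  rw [Complex.ofReal_one, one_smul] at h1
  have e1 : ∀ f : n → ℝ, ((W * diagonal (fun j => ((f j : ℝ) : ℂ)) * Wᴴ) i i)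
      = ((∑ j, Complex.normSq (W i j) * f j : ℝ) : ℂ) := by
    intro f
    rw [Matrix.mul_apply]
    push_cast
    refine Finset.sum_congr rfl fun j _ => ?_
    rw [Matrix.mul_diagonal, conjTranspose_apply, ← Complex.mul_conj (W i j)]
    simp only [RCLike.star_def]
    ring
  have hsum : ∑ j, Complex.normSq (W i j) = 1 := by
    have h2 : (W * Wᴴ) i i = 1 := by rw [hW1]; simp
    rw [Matrix.mul_apply] at h2
    have h3 : ∑ j, W i j * Wᴴ j i = ((∑ j, Complex.normSq (W i j) : ℝ) : ℂ) := by
      push_cast
      refine Finset.sum_congr rfl fun j _ => ?_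
      rw [conjTranspose_apply, ← Complex.mul_conj (W i j)]
      simp only [RCLike.star_def]
    rw [h3] at h2
    exact_mod_cast h2
  rw [h1, e1]
  have h4 : C i i = ((∑ j, Complex.normSq (W i j) * c j : ℝ) : ℂ) := by
    conv_lhs => rw [hCd]
    exact e1 c
  rw [h4, Complex.ofReal_re, Complex.ofReal_re]
  set m : ℝ := ∑ j, Complex.normSq (W i j) * c j with hm
  calc Real.exp m = ∑ j, Complex.normSq (W i j) * (Real.exp m * (1 + (c j - m))) := by
        have : ∀ j, Complex.normSq (W i j) * (Real.exp m * (1 + (c j - m)))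
            = Real.exp m * (Complex.normSq (W i j) * (1 - m))
              + Real.exp m * (Complex.normSq (W i j) * c j) := fun j => by ring
        simp only [this]
        rw [Finset.sum_add_distrib, ← Finset.mul_sum, ← Finset.mul_sum, ← Finset.sum_mul, hsum,
          ← hm]
        ring
    _ ≤ ∑ j, Complex.normSq (W i j) * Real.exp (1 * c j) := by
        refine Finset.sum_le_sum fun j _ => ?_
        refine mul_le_mul_of_nonneg_left ?_ (Complex.normSq_nonneg _)
        have := Real.add_one_le_exp (c j - m)
        have h5 : Real.exp (1 * c j) = Real.exp m * Real.exp (c j - m) := by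
          rw [← Real.exp_add]; congr 1; ring
        rw [h5]
        refine mul_le_mul_of_nonneg_left ?_ (Real.exp_pos _).le
        linarith

theorem trace_exp_pos (K : Matrix n n ℂ) (hK : K.IsHermitian) [Nonempty n] :
    0 < (trace (exp K)).re := by
  rw [trace, Complex.re_sum]
  refine Finset.sum_pos (fun i _ => ?_) Finset.univ_nonempty
  exact lt_of_lt_of_le (Real.exp_pos _) (peierls_entry K hK i)

/-- Peierls–Bogoliubov inequality. -/
theorem peierls_bogoliubov (K V : Matrix n n ℂ) (hK : K.IsHermitian) (hV : V.IsHermitian)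
    [Nonempty n] :
    (trace (exp K)).re * Real.exp ((trace (exp K * V)).re / (trace (exp K)).re)
      ≤ (trace (exp (K + V))).re := by
  have hKV : (K + V).IsHermitian := hK.add hV
  obtain ⟨U, a, hU1, hU2, hKd, hexp⟩ := exists_diag K hK
  have h1 := hexp 1
  rw [Complex.ofReal_one, one_smul] at h1
  have hunit : IsUnit U := ⟨⟨U, Uᴴ, hU1, hU2⟩, rfl⟩
  have hinv : U⁻¹ = Uᴴ := Matrix.inv_eq_right_inv hU1
  set V' : Matrix n n ℂ := Uᴴ * V * U with hV'
  -- trace of exp (K+V)
  have t1 : trace (exp (K + V)) = trace (exp (Uᴴ * (K + V) * U)) := by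
    have := exp_conj' U (K + V) hunit
    rw [hinv] at this
    rw [this, Matrix.trace_mul_comm, ← Matrix.mul_assoc, hU1, Matrix.one_mul]
  have hC : (Uᴴ * (K + V) * U).IsHermitian := by
    have := isHermitian_conjTranspose_mul_mul U hKV
    exact this
  have hCe : ∀ i, ((Uᴴ * (K + V) * U) i i).re = a i + (V' i i).re := by
    intro i
    have : Uᴴ * (K + V) * U = diagonal (fun i => (a i : ℂ)) + V' := by
      rw [Matrix.mul_add, Matrix.add_mul, ← hV']
      congr 1
      conv_lhs => rw [hKd]
      exact unconj U _ hU2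
    rw [this, Matrix.add_apply, Matrix.diagonal_apply_eq, Complex.add_re, Complex.ofReal_re]
  have hZ : (trace (exp K)).re = ∑ i, Real.exp (a i) := by
    have := trace_exp_mul U (fun i => ((Real.exp (1 * a i) : ℝ) : ℂ)) 1
    rw [Matrix.mul_one] at this
    rw [h1, this, Complex.re_sum]
    refine Finset.sum_congr rfl fun i _ => ?_
    rw [Matrix.mul_one, hU2, Matrix.one_apply_eq, mul_one, one_mul, Complex.ofReal_re]
  have hZV : (trace (exp K * V)).re = ∑ i, Real.exp (a i) * (V' i i).re := by
    rw [h1, trace_exp_mul, Complex.re_sum]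
    refine Finset.sum_congr rfl fun i _ => ?_
    rw [← hV', Complex.re_ofReal_mul, one_mul]
  have hZpos : 0 < (trace (exp K)).re := trace_exp_pos K hK
  set Z := (trace (exp K)).re with hZdef
  set v : ℝ := (trace (exp K * V)).re / Z with hv
  have hvZ : v * Z = ∑ i, Real.exp (a i) * (V' i i).re := by
    rw [hv, div_mul_cancel₀ _ hZpos.ne', hZV]
  rw [t1, trace, Complex.re_sum]
  calc Z * Real.exp v = ∑ i, Real.exp (a i) * (Real.exp v * (1 + ((V' i i).re - v))) := by
        have : ∀ i, Real.exp (a i) * (Real.exp v * (1 + ((V' i i).re - v)))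
            = Real.exp v * (1 - v) * Real.exp (a i)
              + Real.exp v * (Real.exp (a i) * (V' i i).re) := fun i => by ring
        simp only [this]
        rw [Finset.sum_add_distrib, ← Finset.mul_sum, ← Finset.mul_sum, ← hZ, ← hvZ]
        ring
    _ ≤ ∑ i, (exp (Uᴴ * (K + V) * U) i i).re := by
        refine Finset.sum_le_sum fun i _ => ?_
        refine le_trans ?_ (peierls_entry _ hC i)
        rw [hCe i, Real.exp_add]
        refine mul_le_mul_of_nonneg_left ?_ (Real.exp_pos _).le
        have := Real.add_one_le_exp ((V' i i).re - v)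
        have h5 : Real.exp ((V' i i).re) = Real.exp v * Real.exp ((V' i i).re - v) := by
          rw [← Real.exp_add]; congr 1; ring
        rw [h5]
        refine mul_le_mul_of_nonneg_left ?_ (Real.exp_pos _).le
        linarith

/-- positivity of Gibbs expectations -/
theorem trace_exp_mul_nonneg (K P : Matrix n n ℂ) (hK : K.IsHermitian) (hP : P.PosSemidef) :
    0 ≤ (trace (exp K * P)).re := by
  obtain ⟨U, a, hU1, hU2, hKd, hexp⟩ := exists_diag K hK
  have h1 := hexp 1
  rw [Complex.ofReal_one, one_smul] at h1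
  rw [h1, trace_exp_mul, Complex.re_sum]
  refine Finset.sum_nonneg fun i _ => ?_
  rw [Complex.re_ofReal_mul]
  refine mul_nonneg (Real.exp_pos _).le ?_
  have h2 : (Uᴴ * P * U).PosSemidef := hP.conjTranspose_mul_mul_same U
  have h3 := h2.diag_nonneg (i := i)
  exact (Complex.le_def.mp h3).1

end Vale.Agent.BlochHeis
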