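import Vale.Agent.BlochHeis.Riemann

open Matrix Filter Topology
open scoped ComplexOrder

namespace Vale.Agent.BlochHeis

variable {k : ℕ} {S : Fin 3 → Matrix (Fin (k + 1)) (Fin (k + 1)) ℂ}

/-- Hamiltonian in a field, as an abstract Heisenberg Hamiltonian -/
noncomputable def HH (S : Fin 3 → Matrix (Fin (k + 1)) (Fin (k + 1)) ℂ) (N : ℕ) (h : ℝ) : Op k N :=
  heis (fun x : Box N => site x (raise S)) (fun x : Box N => site x (S 2)) (cpl N) h

/-- partition function -/
noncomputable def ZZ (S : Fin 3 → Matrix (Fin (k + 1)) (Fin (k + 1)) ℂ) (β : ℝ) (N : ℕ) (h : ℝ) :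
    ℝ := gib (HH S N h) β 1

theorem finPressure_eq (hS : IsSpin k S) (β h : ℝ) (N : ℕ) :
    finPressure S β h N = (β * Fintype.card (Box N))⁻¹ * Real.log (ZZ S β N h) := by
  unfold finPressure ZZ gib HH
  rw [ham_eq hS h, mul_one]
  simp only [Complex.ofReal_neg]

theorem HH_herm (hS : IsSpin k S) (N : ℕ) (h : ℝ) : (HH S N h).IsHermitian :=
  heis_herm (spinSys_box hS) _ (cpl_self N) h

theorem ZZ_pos (hS : IsSpin k S) (β : ℝ) (N : ℕ) (h : ℝ) : 0 < ZZ S β N h :=
  gib_one_pos _ (HH_herm hS N h) β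

theorem mag_herm (hS : IsSpin k S) (N : ℕ) : (mag S N).IsHermitian := by
  unfold mag IsHermitian
  rw [conjTranspose_sum]
  exact Finset.sum_congr rfl fun x _ => by rw [site_conjTranspose, (hS.herm 2).eq]

theorem HH_sub (N : ℕ) (h h' : ℝ) :
    HH S N h' = HH S N h - ((h' - h : ℝ) : ℂ) • mag S N := by
  unfold HH heis mag
  push_cast
  rw [sub_smul]
  abel

/-- convexity in the field: subgradient inequality for `log Z` -/
theorem log_subgrad (hS : IsSpin k S) (β : ℝ) (N : ℕ) (h h' : ℝ) :
    Real.log (ZZ S β N h) + β * (h' - h) * (gib (HH S N h) β (mag S N) / ZZ S β N h)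
      ≤ Real.log (ZZ S β N h') := by
  have hK : (((-β : ℝ) : ℂ) • HH S N h).IsHermitian := by
    unfold IsHermitian
    rw [conjTranspose_smul, (HH_herm hS N h).eq]; simp
  have hV : (((β * (h' - h) : ℝ) : ℂ) • mag S N).IsHermitian := by
    unfold IsHermitian
    rw [conjTranspose_smul, (mag_herm hS N).eq]; simp
  have hpb := peierls_bogoliubov _ _ hK hV
  have e1 : ((-β : ℝ) : ℂ) • HH S N h + ((β * (h' - h) : ℝ) : ℂ) • mag S N
      = ((-β : ℝ) : ℂ) • HH S N h' := by
    rw [HH_sub N h h', smul_sub, smul_smul]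
    push_cast
    module
  rw [e1] at hpb
  have e2 : (trace (NormedSpace.exp (((-β : ℝ) : ℂ) • HH S N h))).re = ZZ S β N h := by
    unfold ZZ gib; rw [mul_one]
  have e3 : (trace (NormedSpace.exp (((-β : ℝ) : ℂ) • HH S N h'))).re = ZZ S β N h' := by
    unfold ZZ gib; rw [mul_one]
  have e4 : (trace (NormedSpace.exp (((-β : ℝ) : ℂ) • HH S N h)
      * (((β * (h' - h) : ℝ) : ℂ) • mag S N))).re
      = β * (h' - h) * gib (HH S N h) β (mag S N) := by
    have := gib_smul (HH S N h) β (β * (h' - h)) (mag S N)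
    unfold gib at this ⊢
    exact this
  rw [e2, e3, e4] at hpb
  have hp := ZZ_pos hS β N h
  have := Real.log_le_log (mul_pos hp (Real.exp_pos _)) hpb
  rw [Real.log_mul hp.ne' (Real.exp_pos _).ne', Real.log_exp] at this
  rw [mul_div_assoc] at this
  exact this

/-- finite volume magnetisation -/
noncomputable def mN (S : Fin 3 → Matrix (Fin (k + 1)) (Fin (k + 1)) ℂ) (β : ℝ) (N : ℕ) (h : ℝ) :
    ℝ := gib (HH S N h) β (mag S N) / (Fintype.card (Box N) * ZZ S β N h)

theorem card_pos (N : ℕ) : (0 : ℝ) < Fintype.card (Box N) := by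
  exact_mod_cast Fintype.card_pos

theorem press_subgrad (hS : IsSpin k S) (β : ℝ) (hβ : 0 < β) (N : ℕ) (h h' : ℝ) :
    finPressure S β h N + (h' - h) * mN S β N h ≤ finPressure S β h' N := by
  have h1 := log_subgrad hS β N h h'
  have hc := card_pos N
  have hz := ZZ_pos hS β N h
  rw [finPressure_eq hS, finPressure_eq hS]
  have h2 : (β * (Fintype.card (Box N) : ℝ))⁻¹ * (Real.log (ZZ S β N h)
      + β * (h' - h) * (gib (HH S N h) β (mag S N) / ZZ S β N h))
      ≤ (β * (Fintype.card (Box N) : ℝ))⁻¹ * Real.log (ZZ S β N h') :=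
    mul_le_mul_of_nonneg_left h1 (by positivity)
  refine le_trans (le_of_eq ?_) h2
  unfold mN
  field_simp

theorem mN_le (hS : IsSpin k S) (hk : 0 < k) (β : ℝ) (N : ℕ) (h : ℝ) :
    |mN S β N h| ≤ (k : ℝ) / 2 := by
  have hs : (0 : ℝ) < (k : ℝ) / 2 := by positivity
  have hsys := spinSys_box (N := N) hS
  have hc := card_pos N
  have hz := ZZ_pos hS β N h
  have hK := HH_herm hS N h
  have e1 : gib (HH S N h) β (mag S N) = ∑ x : Box N, gib (HH S N h) β (site x (S 2)) := by
    unfold mag; rw [gib_sum]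
  have up : ∀ x : Box N, gib (HH S N h) β (site x (S 2)) ≤ (k : ℝ) / 2 * ZZ S β N h := by
    intro x
    have := gib_le _ hK β _ _ ((hsys.one x).up hs)
    rwa [gib_smul] at this
  have dn : ∀ x : Box N, -((k : ℝ) / 2 * ZZ S β N h) ≤ gib (HH S N h) β (site x (S 2)) := by
    intro x
    have := gib_nonneg _ hK β _ ((hsys.one x).down hs)
    rw [gib_add, gib_smul] at this
    unfold ZZ
    linarith
  unfold mN
  rw [abs_div, abs_of_pos (mul_pos hc hz), div_le_iff₀ (mul_pos hc hz), abs_le, e1]
  constructor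
  · calc -((k : ℝ) / 2 * (Fintype.card (Box N) * ZZ S β N h))
        = ∑ _x : Box N, -((k : ℝ) / 2 * ZZ S β N h) := by
          rw [Finset.sum_const, Finset.card_univ, nsmul_eq_mul]; ring
      _ ≤ _ := Finset.sum_le_sum fun x _ => dn x
  · calc ∑ x : Box N, gib (HH S N h) β (site x (S 2))
        ≤ ∑ _x : Box N, (k : ℝ) / 2 * ZZ S β N h := Finset.sum_le_sum fun x _ => up x
      _ = _ := by
          rw [Finset.sum_const, Finset.card_univ, nsmul_eq_mul]; ring

theorem sum_cpl (N : ℕ) : ∑ x : Box N, ∑ y : Box N, cpl N x y ≤ 6 * Fintype.card (Box N) := by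
  have h1 : ∀ x y : Box N, cpl N x y
      ≤ ∑ j, (if ∀ i, i ≠ j → x i = y i then
          (if |((x j : ℕ) : ℤ) - ((y j : ℕ) : ℤ)| = 1 then (1 : ℝ) else 0) else 0) := by
    intro x y
    unfold cpl
    by_cases hA : Adj x y
    · rw [if_pos hA]
      obtain ⟨j, hj, hj1⟩ := adj_cases hA
      refine le_trans ?_ (Finset.single_le_sum (f := fun j => (if ∀ i, i ≠ j → x i = y i then
          (if |((x j : ℕ) : ℤ) - ((y j : ℕ) : ℤ)| = 1 then (1 : ℝ) else 0) else 0))
          ?_ (Finset.mem_univ j))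
      · rw [if_pos hj, if_pos hj1]
      · intro i _
        split_ifs <;> norm_num
    · rw [if_neg hA]
      refine Finset.sum_nonneg fun j _ => ?_
      split_ifs <;> norm_num
  have h2 : ∀ x : Box N, ∑ y, cpl N x y ≤ 6 := by
    intro x
    refine le_trans (Finset.sum_le_sum fun y _ => h1 x y) ?_
    rw [Finset.sum_comm]
    have : ∀ j : Fin 3, ∑ y : Box N, (if ∀ i, i ≠ j → x i = y i then
          (if |((x j : ℕ) : ℤ) - ((y j : ℕ) : ℤ)| = 1 then (1 : ℝ) else 0) else 0) ≤ 2 := by
      intro j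
      rw [sum_off' j x (fun y => if |((x j : ℕ) : ℤ) - ((y j : ℕ) : ℤ)| = 1 then (1 : ℝ) else 0)]
      simp only [Function.update_self]
      exact count_le N (x j)
    refine le_trans (Finset.sum_le_sum fun j _ => this j) ?_
    simp
    norm_num
  calc ∑ x : Box N, ∑ y : Box N, cpl N x y ≤ ∑ _x : Box N, (6 : ℝ) :=
        Finset.sum_le_sum fun x _ => h2 x
    _ = 6 * Fintype.card (Box N) := by
        rw [Finset.sum_const, Finset.card_univ, nsmul_eq_mul]; ring

theorem ex_ge {n : Type*} [Fintype n] [DecidableEq n] {L : Type*} [Fintype L] [DecidableEq L]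
    {s : ℝ} {P Z : L → Matrix n n ℂ} (h : SpinSys s P Z) (hs : 0 < s) (x y : L) (hxy : x ≠ y) :
    (((5 * (s * s) : ℝ) : ℂ) • (1 : Matrix n n ℂ) + ex P Z x y).PosSemidef := by
  apply psd_of_smul (c := 2) (by norm_num)
  have hD : (Z x + Z y)ᴴ = Z x + Z y := by simp [(h.one x).Zh, (h.one y).Zh]
  have e : ((2 : ℝ) : ℂ) • (((5 * (s * s) : ℝ) : ℂ) • (1 : Matrix n n ℂ) + ex P Z x y)
      = ((((s : ℂ) * s) • (1 : Matrix n n ℂ) - Z x * Z x)
        + (((s : ℂ) * s) • (1 : Matrix n n ℂ) - Z y * Z y)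
        + (Z x + Z y)ᴴ * (Z x + Z y))
        + ((P x + P y)ᴴ * (P x + P y)
          + (((2 * s : ℝ) : ℂ) • ((s : ℂ) • (1 : Matrix n n ℂ) - Z x) - (P x)ᴴ * P x)
          + (((2 * s : ℝ) : ℂ) • ((s : ℂ) • (1 : Matrix n n ℂ) - Z y) - (P y)ᴴ * P y)
          + ((2 * s : ℝ) : ℂ) • ((s : ℂ) • (1 : Matrix n n ℂ) + Z x)
          + ((2 * s : ℝ) : ℂ) • ((s : ℂ) • (1 : Matrix n n ℂ) + Z y)) := by
    rw [hD, conjTranspose_add]
    unfold ex exch
    simp only [add_mul, mul_add, ← h.cZZ x y hxy, h.cPQ x y hxy]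
    push_cast
    module
  rw [e]
  refine PosSemidef.add ?_ ?_
  · exact (((h.one x).sq hs).add ((h.one y).sq hs)).add (posSemidef_conjTranspose_mul_self _)
  · exact ((((posSemidef_conjTranspose_mul_self _).add ((h.one x).lower hs)).add
      ((h.one y).lower hs)).add (psd_smul (by linarith) ((h.one x).down hs))).add
      (psd_smul (by linarith) ((h.one y).down hs))

/-- boundedness of the zero-field pressure -/
theorem press_zero_bdd (hS : IsSpin k S) (hk : 0 < k) (β : ℝ) (hβ : 0 < β) :
    ∃ C, ∀ N, |finPressure S β 0 N| ≤ C := by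
  set s : ℝ := (k : ℝ) / 2 with hsdef
  have hs : (0 : ℝ) < s := by rw [hsdef]; positivity
  refine ⟨Real.log (k + 1) / β + 15 * (s * s), fun N => ?_⟩
  have hsys := spinSys_box (N := N) hS
  have hc := card_pos N
  set H := HH S N 0 with hH
  have hHh : H.IsHermitian := HH_herm hS N 0
  set D : ℝ := (trace (1 : Op k N)).re with hD
  have hDval : D = ((k : ℝ) + 1) ^ (Fintype.card (Box N)) := by
    rw [hD, trace_one, Complex.natCast_re, Fintype.card_fun, Fintype.card_fin]
    push_cast
    rfl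
  have hDp : 0 < D := by rw [hDval]; positivity
  have hlogD : Real.log D = Fintype.card (Box N) * Real.log (k + 1) := by
    rw [hDval, Real.log_pow]
  -- energy bounds
  have hneg : -H = ((2⁻¹ : ℝ) : ℂ) • ∑ x : Box N, ∑ y : Box N, (cpl N x y : ℂ) •
      ex (fun x : Box N => site x (raise S)) (fun x : Box N => site x (S 2)) x y := by
    rw [hH]; unfold HH heis
    simp
  have hsum : ∀ (a : ℝ) (X : Box N → Box N → Op k N),
      (∀ x y, x ≠ y → ((((a : ℝ)) : ℂ) • (1 : Op k N) + X x y).PosSemidef) →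
      (((6 * Fintype.card (Box N) * a : ℝ) : ℂ) • (1 : Op k N)
        + ∑ x : Box N, ∑ y : Box N, (cpl N x y : ℂ) • X x y).PosSemidef ∨ a < 0 := by
    intro a X hX
    by_cases ha : a < 0
    · right; exact ha
    left
    push Not at ha
    have e : ((6 * Fintype.card (Box N) * a : ℝ) : ℂ) • (1 : Op k N)
        + ∑ x : Box N, ∑ y : Box N, (cpl N x y : ℂ) • X x y
        = (((6 * Fintype.card (Box N) - ∑ x : Box N, ∑ y : Box N, cpl N x y) * a : ℝ) : ℂ)
            • (1 : Op k N)
          + ∑ x : Box N, ∑ y : Box N, (cpl N x y : ℂ) • ((((a : ℝ)) : ℂ) • (1 : Op k N) + X x y) := by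
      have e1 : ∑ x : Box N, ∑ y : Box N, (cpl N x y : ℂ) • ((((a : ℝ)) : ℂ) • (1 : Op k N) + X x y)
          = (((∑ x : Box N, ∑ y : Box N, cpl N x y) * a : ℝ) : ℂ) • (1 : Op k N)
            + ∑ x : Box N, ∑ y : Box N, (cpl N x y : ℂ) • X x y := by
        simp only [smul_add, Finset.sum_add_distrib, smul_smul]
        congr 1
        push_cast
        simp only [Finset.sum_mul, ← Finset.sum_smul]
      rw [e1, ← add_assoc, ← add_smul]
      congr 2
      push_cast
      ring
    rw [e]
    refine PosSemidef.add ?_ ?_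
    · exact psd_smul (mul_nonneg (by have := sum_cpl N; linarith) ha) PosSemidef.one
    · refine posSemidef_sum _ fun x _ => posSemidef_sum _ fun y _ => ?_
      by_cases hxy : x = y
      · subst hxy; rw [cpl_self]; simpa using PosSemidef.zero
      · exact psd_smul (cpl_nonneg N x y) (hX x y hxy)
  have hup : (((3 * Fintype.card (Box N) * (s * s) : ℝ) : ℂ) • (1 : Op k N) - (-H)).PosSemidef := by
    rcases hsum (s * s) (fun x y => - ex (fun x : Box N => site x (raise S))
      (fun x : Box N => site x (S 2)) x y) (fun x y hxy => by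
        have := ex_le hsys hs x y hxy
        rw [← sub_eq_add_neg]
        push_cast
        exact this) with h1 | h1
    · rw [hneg]
      have := psd_smul (c := 2⁻¹) (by norm_num) h1
      convert this using 1
      simp only [smul_neg, Finset.sum_neg_distrib]
      push_cast
      module
    · nlinarith
  have hdn : (((15 * Fintype.card (Box N) * (s * s) : ℝ) : ℂ) • (1 : Op k N) + (-H)).PosSemidef := by
    rcases hsum (5 * (s * s)) (fun x y => ex (fun x : Box N => site x (raise S))
      (fun x : Box N => site x (S 2)) x y) (fun x y hxy => ex_ge hsys hs x y hxy) with h1 | h1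
    · rw [hneg]
      have := psd_smul (c := 2⁻¹) (by norm_num) h1
      convert this using 1
      push_cast
      module
    · nlinarith
  have hZ := ZZ_pos hS β N 0
  have hexp0 : NormedSpace.exp (0 : Op k N) = 1 := NormedSpace.exp_zero
  -- lower bound
  have hlow : Real.log D - 15 * Fintype.card (Box N) * (s * s) * β ≤ Real.log (ZZ S β N 0) := by
    have hV : (((-β : ℝ) : ℂ) • H).IsHermitian := by
      unfold IsHermitian; rw [conjTranspose_smul, hHh.eq]; simp
    have hpb := peierls_bogoliubov (0 : Op k N) (((-β : ℝ) : ℂ) • H) isHermitian_zero hV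
    rw [zero_add, hexp0, one_mul, ← hD] at hpb
    have e1 : (trace (NormedSpace.exp (((-β : ℝ) : ℂ) • H))).re = ZZ S β N 0 := by
      unfold ZZ gib; rw [mul_one]
    rw [e1] at hpb
    have h2 := Real.log_le_log (mul_pos hDp (Real.exp_pos _)) hpb
    rw [Real.log_mul hDp.ne' (Real.exp_pos _).ne', Real.log_exp] at h2
    have h3 : - (15 * Fintype.card (Box N) * (s * s)) * β
        ≤ (trace (((-β : ℝ) : ℂ) • H)).re / D := by
      rw [le_div_iff₀ hDp]
      have h4 := hdn.trace_nonneg
      have h5 := (Complex.le_def.mp h4).1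
      rw [trace_add, trace_smul, trace_neg, smul_eq_mul, Complex.add_re, Complex.re_ofReal_mul,
        Complex.neg_re, ← hD, Complex.zero_re] at h5
      rw [trace_smul, smul_eq_mul, Complex.re_ofReal_mul]
      nlinarith
    linarith
  have hupp : Real.log (ZZ S β N 0) ≤ Real.log D + 3 * Fintype.card (Box N) * (s * s) * β := by
    have hK : (((-β : ℝ) : ℂ) • H).IsHermitian := by
      unfold IsHermitian; rw [conjTranspose_smul, hHh.eq]; simp
    have hV : (((β : ℝ) : ℂ) • H).IsHermitian := by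
      unfold IsHermitian; rw [conjTranspose_smul, hHh.eq]; simp
    have hpb := peierls_bogoliubov _ _ hK hV
    have e0 : ((-β : ℝ) : ℂ) • H + ((β : ℝ) : ℂ) • H = 0 := by push_cast; module
    rw [e0, hexp0, ← hD] at hpb
    have e1 : (trace (NormedSpace.exp (((-β : ℝ) : ℂ) • H))).re = ZZ S β N 0 := by
      unfold ZZ gib; rw [mul_one]
    rw [e1] at hpb
    have h2 := Real.log_le_log (mul_pos hZ (Real.exp_pos _)) hpb
    rw [Real.log_mul hZ.ne' (Real.exp_pos _).ne', Real.log_exp] at h2
    have h3 : - (3 * Fintype.card (Box N) * (s * s)) * β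
        ≤ (trace (NormedSpace.exp (((-β : ℝ) : ℂ) • H) * (((β : ℝ) : ℂ) • H))).re / ZZ S β N 0 := by
      rw [le_div_iff₀ hZ]
      have h4 : (trace (NormedSpace.exp (((-β : ℝ) : ℂ) • H) * (((β : ℝ) : ℂ) • H))).re
          = β * gib H β H := by
        have := gib_smul H β β H
        unfold gib at this ⊢
        exact this
      have h5 := gib_nonneg H hHh β _ hup
      rw [gib_sub, gib_smul] at h5
      have h6 : gib H β (-H) = - gib H β H := by
        have := gib_smul H β (-1) H
        simpa using this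
      have h7 : gib H β 1 = ZZ S β N 0 := rfl
      rw [h6, h7] at h5
      rw [h4]
      nlinarith
    linarith
  rw [finPressure_eq hS, abs_le]
  have hbc : 0 < β * (Fintype.card (Box N) : ℝ) := by positivity
  have hlogk : 0 ≤ Real.log ((k : ℝ) + 1) := Real.log_nonneg (by
    have : (0 : ℝ) ≤ k := Nat.cast_nonneg k
    linarith)
  rw [hlogD] at hlow hupp
  constructor
  · rw [inv_mul_eq_div, le_div_iff₀ hbc]
    have e : -(Real.log (k + 1) / β + 15 * (s * s)) * (β * (Fintype.card (Box N) : ℝ))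
        = -(Fintype.card (Box N) * Real.log (k + 1)) - 15 * Fintype.card (Box N) * (s * s) * β := by
      field_simp
      ring
    rw [e]
    have : 0 ≤ (Fintype.card (Box N) : ℝ) * Real.log (k + 1) := by positivity
    linarith
  · rw [inv_mul_eq_div, div_le_iff₀ hbc]
    have e : (Real.log (k + 1) / β + 15 * (s * s)) * (β * (Fintype.card (Box N) : ℝ))
        = (Fintype.card (Box N) * Real.log (k + 1)) + 15 * Fintype.card (Box N) * (s * s) * β := by
      field_simp
    rw [e]
    have : 0 ≤ (Fintype.card (Box N) : ℝ) * (s * s) * β := by positivity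
    linarith

end Vale.Agent.BlochHeis
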