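import Vale.Agent.BlochHeis.Four

open MeasureTheory Filter Topology Set

namespace Vale.Agent.BlochHeis

/-- one-dimensional Gaussian factor -/
noncomputable def gf (w : ℝ) : ℝ := Real.pi⁻¹ * ∫ u in (0 : ℝ)..Real.pi, Real.exp (-w * u ^ 2)

theorem cont_g (w : ℝ) : Continuous fun u : ℝ => Real.exp (-w * u ^ 2) := by fun_prop

theorem sum_half (N : ℕ) (w : ℝ) (hw : 0 ≤ w) :
    (2 * (N : ℝ) + 1) / (2 * Real.pi) * ∫ u in (0 : ℝ)..Real.pi, Real.exp (-w * u ^ 2)
      ≤ ∑ i ∈ Finset.range (N + 1), Real.exp (-w * (2 * Real.pi * i / (2 * N + 1)) ^ 2) := by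
  set c : ℝ := 2 * Real.pi / (2 * N + 1) with hc
  have hLp : (0 : ℝ) < 2 * N + 1 := by positivity
  have hcp : 0 < c := by positivity
  have h1 : ∫ x in (0 : ℝ)..(0 : ℝ) + ((N + 1 : ℕ) : ℝ), Real.exp (-w * (c * x) ^ 2)
      ≤ ∑ i ∈ Finset.range (N + 1), Real.exp (-w * (c * ((0 : ℝ) + (i : ℕ))) ^ 2) := by
    apply AntitoneOn.integral_le_sum
    intro x hx y hy hxy
    apply Real.exp_le_exp.mpr
    have hx0 : 0 ≤ x := hx.1
    have : (c * x) ^ 2 ≤ (c * y) ^ 2 := by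
      apply pow_le_pow_left₀ (by positivity)
      exact mul_le_mul_of_nonneg_left hxy hcp.le
    nlinarith
  have h2 : ∫ x in (0 : ℝ)..(0 : ℝ) + ((N + 1 : ℕ) : ℝ), Real.exp (-w * (c * x) ^ 2)
      = c⁻¹ * ∫ u in (0 : ℝ)..c * ((N + 1 : ℕ) : ℝ), Real.exp (-w * u ^ 2) := by
    have := intervalIntegral.integral_comp_mul_left (a := 0) (b := ((N + 1 : ℕ) : ℝ))
      (fun u : ℝ => Real.exp (-w * u ^ 2)) hcp.ne'
    rw [zero_add, this, mul_zero, smul_eq_mul]
  have h3 : ∫ u in (0 : ℝ)..Real.pi, Real.exp (-w * u ^ 2)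
      ≤ ∫ u in (0 : ℝ)..c * ((N + 1 : ℕ) : ℝ), Real.exp (-w * u ^ 2) := by
    apply intervalIntegral.integral_mono_interval le_rfl Real.pi_pos.le
    · rw [hc, div_mul_eq_mul_div, le_div_iff₀ hLp]
      push_cast
      have := Real.pi_pos
      nlinarith
    · exact Filter.Eventually.of_forall fun u => (Real.exp_pos _).le
    · exact (cont_g w).intervalIntegrable _ _
  have h4 : (2 * (N : ℝ) + 1) / (2 * Real.pi) = c⁻¹ := by rw [hc, inv_div]
  rw [h4]
  calc c⁻¹ * ∫ u in (0 : ℝ)..Real.pi, Real.exp (-w * u ^ 2)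
      ≤ c⁻¹ * ∫ u in (0 : ℝ)..c * ((N + 1 : ℕ) : ℝ), Real.exp (-w * u ^ 2) :=
        mul_le_mul_of_nonneg_left h3 (by positivity)
    _ ≤ ∑ i ∈ Finset.range (N + 1), Real.exp (-w * (c * ((0 : ℝ) + (i : ℕ))) ^ 2) := by
        rw [← h2]; exact h1
    _ = _ := by
        refine Finset.sum_congr rfl fun i _ => ?_
        rw [hc]; congr 3
        ring

theorem sum_freq (N : ℕ) (w : ℝ) (hw : 0 ≤ w) :
    gf w - (2 * (N : ℝ) + 1)⁻¹
      ≤ (2 * (N : ℝ) + 1)⁻¹ * ∑ a : Fin (2 * N + 1), Real.exp (-w * freq N a ^ 2) := by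
  have hLp : (0 : ℝ) < 2 * N + 1 := by positivity
  have hh := sum_half N w hw
  set I := ∫ u in (0 : ℝ)..Real.pi, Real.exp (-w * u ^ 2) with hI
  set H := ∑ i ∈ Finset.range (N + 1), Real.exp (-w * (2 * Real.pi * i / (2 * N + 1)) ^ 2) with hH
  have e1 : ∑ a : Fin (2 * N + 1), Real.exp (-w * freq N a ^ 2) = 2 * H - 1 := by
    unfold freq
    rw [Fin.sum_univ_eq_sum_range
      (fun i : ℕ => Real.exp (-w * (2 * Real.pi * ((i : ℝ) - N) / (2 * N + 1)) ^ 2)) (2 * N + 1)]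
    have : 2 * N + 1 = N + (N + 1) := by ring
    rw [this, Finset.sum_range_add]
    have e2 : ∑ i ∈ Finset.range (N + 1),
        Real.exp (-w * (2 * Real.pi * (((N + i : ℕ) : ℝ) - N) / (2 * N + 1)) ^ 2) = H := by
      refine Finset.sum_congr rfl fun i _ => ?_
      push_cast
      congr 3
      ring
    have e3 : ∑ i ∈ Finset.range N,
        Real.exp (-w * (2 * Real.pi * ((i : ℝ) - N) / (2 * N + 1)) ^ 2) = H - 1 := by
      rw [hH, Finset.sum_range_succ']
      simp only [Nat.cast_zero, mul_zero, zero_div, ne_eq, OfNat.ofNat_ne_zero, not_false_eq_true,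
        zero_pow, Real.exp_zero, add_sub_cancel_right]
      rw [← Finset.sum_range_reflect]
      refine Finset.sum_congr rfl fun i hi => ?_
      have hi' : i < N := Finset.mem_range.mp hi
      have : ((N - 1 - i : ℕ) : ℝ) = (N : ℝ) - 1 - i := by
        rw [Nat.cast_sub (by omega), Nat.cast_sub (by omega)]; simp
      rw [this]
      congr 2
      push_cast
      ring
    rw [e2, e3]
    ring
  rw [e1]
  unfold gf
  rw [← hI]
  have h5 : (2 * (N : ℝ) + 1)⁻¹ * (2 * H - 1)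
      ≥ (2 * (N : ℝ) + 1)⁻¹ * (2 * ((2 * (N : ℝ) + 1) / (2 * Real.pi) * I) - 1) := by
    apply mul_le_mul_of_nonneg_left _ (by positivity)
    linarith
  refine le_trans (le_of_eq ?_) h5
  have := Real.pi_pos
  field_simp

theorem gf_nonneg (w : ℝ) : 0 ≤ gf w := by
  unfold gf
  refine mul_nonneg (by positivity) ?_
  exact intervalIntegral.integral_nonneg Real.pi_pos.le fun u _ => (Real.exp_pos _).le

/-- `√w * gf w → 1 / (2 √π)` -/
theorem gf_tendsto : Tendsto (fun w : ℝ => Real.sqrt w * gf w) atTop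
    (𝓝 (Real.pi⁻¹ * (Real.sqrt Real.pi / 2))) := by
  have h1 : Tendsto (fun w : ℝ => ∫ u in (0 : ℝ)..(Real.sqrt w * Real.pi), Real.exp (-(1 : ℝ) * u ^ 2))
      atTop (𝓝 (∫ u in Ioi (0 : ℝ), Real.exp (-(1 : ℝ) * u ^ 2))) := by
    apply intervalIntegral_tendsto_integral_Ioi
    · exact (integrableOn_Ioi_exp_neg_mul_sq_iff (b := 1)).mpr one_pos
    · exact Tendsto.atTop_mul_const Real.pi_pos Real.tendsto_sqrt_atTop
  rw [integral_gaussian_Ioi, div_one] at h1
  have h2 := h1.const_mul Real.pi⁻¹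
  refine h2.congr' ?_
  filter_upwards [eventually_gt_atTop 0] with w hw
  unfold gf
  have hs : 0 < Real.sqrt w := Real.sqrt_pos.mpr hw
  have := intervalIntegral.integral_comp_mul_left (a := 0) (b := Real.pi)
      (fun u : ℝ => Real.exp (-(1 : ℝ) * u ^ 2)) hs.ne'
  rw [mul_zero, smul_eq_mul] at this
  have e : ∀ u : ℝ, Real.exp (-(1 : ℝ) * (Real.sqrt w * u) ^ 2) = Real.exp (-w * u ^ 2) := by
    intro u
    rw [mul_pow, Real.sq_sqrt hw.le]
    congr 1; ring
  simp only [e] at this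
  rw [this]
  field_simp

end Vale.Agent.BlochHeis
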