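import Vale.Agent.BlochHeis.Peierls

open Matrix
open scoped ComplexOrder

namespace Vale.Agent.BlochHeis

variable {n : Type*} [Fintype n] [DecidableEq n]

theorem psd_of_smul {c : ℝ} (hc : 0 < c) {M : Matrix n n ℂ} (h : ((c : ℂ) • M).PosSemidef) :
    M.PosSemidef := by
  have h2 : (((c⁻¹ : ℝ) : ℂ) • ((c : ℂ) • M)).PosSemidef :=
    h.smul (by exact_mod_cast (inv_pos.mpr hc).le)
  have : ((c⁻¹ : ℝ) : ℂ) • ((c : ℂ) • M) = M := by
    rw [smul_smul, ← Complex.ofReal_mul, inv_mul_cancel₀ hc.ne', Complex.ofReal_one, one_smul]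
  rwa [this] at h2

theorem psd_smul {c : ℝ} (hc : 0 ≤ c) {M : Matrix n n ℂ} (h : M.PosSemidef) :
    ((c : ℂ) • M).PosSemidef := h.smul (by exact_mod_cast hc)

/-- if `G` is Hermitian, `G * c` is positive semidefinite and `c - 1` is positive semidefinite,
then `G` is positive semidefinite -/
theorem psd_of_mul_psd {G c : Matrix n n ℂ} (hG : G.IsHermitian) (hc : (c - 1).PosSemidef)
    (h : (G * c).PosSemidef) : G.PosSemidef := by
  rw [hG.posSemidef_iff_eigenvalues_nonneg]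
  intro i
  by_contra hneg
  simp only [Pi.zero_apply, not_le] at hneg
  set v : n → ℂ := (hG.eigenvectorBasis i : EuclideanSpace ℂ n).ofLp with hv
  have hGv : G *ᵥ v = (hG.eigenvalues i : ℝ) • v := hG.mulVec_eigenvectorBasis i
  have h1 := h.dotProduct_mulVec_nonneg v
  have h2 := hc.dotProduct_mulVec_nonneg v
  have hvne : v ≠ 0 := by
    intro h0
    have h3 : (hG.eigenvectorBasis i : EuclideanSpace ℂ n) ≠ 0 :=
      hG.eigenvectorBasis.toBasis.ne_zero i |> fun h => by simpa using h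
    apply h3
    ext j
    have := congrFun h0 j
    simpa [hv] using this
  have hpos : 0 < star v ⬝ᵥ v := dotProduct_star_self_pos_iff.mpr hvne
  have e1 : star v ⬝ᵥ ((G * c) *ᵥ v) = ((hG.eigenvalues i : ℝ) : ℂ) * (star v ⬝ᵥ (c *ᵥ v)) := by
    rw [← Matrix.mulVec_mulVec, Matrix.dotProduct_mulVec]
    have : star v ᵥ* G = ((hG.eigenvalues i : ℝ) : ℂ) • star v := by
      have h4 : star v ᵥ* G = star (Gᴴ *ᵥ v) := by
        rw [Matrix.star_mulVec, conjTranspose_conjTranspose]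
      rw [h4, hG.eq, hGv]
      ext j
      simp
    rw [this, smul_dotProduct, smul_eq_mul]
  rw [e1] at h1
  have e2 : star v ⬝ᵥ ((c - 1) *ᵥ v) = star v ⬝ᵥ (c *ᵥ v) - star v ⬝ᵥ v := by
    rw [Matrix.sub_mulVec, Matrix.one_mulVec, dotProduct_sub]
  rw [e2] at h2
  have h5 : 0 < star v ⬝ᵥ (c *ᵥ v) := lt_of_lt_of_le hpos (sub_nonneg.mp h2)
  have h6 : ((hG.eigenvalues i : ℝ) : ℂ) < 0 := by exact_mod_cast hneg
  exact absurd h1 (not_le_of_gt (mul_neg_of_neg_of_pos h6 h5))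

/-- A single spin of size `s` in a matrix algebra: raising operator `P`, third component `Z`. -/
structure Spin1 (s : ℝ) (P Z : Matrix n n ℂ) : Prop where
  Zh : Zᴴ = Z
  ZP : Z * P = P * Z + P
  PQ : P * Pᴴ = Pᴴ * P + (2 : ℂ) • Z
  cas : Pᴴ * P = ((s : ℂ) * (s + 1)) • (1 : Matrix n n ℂ) - Z * Z - Z

variable {s : ℝ} {P Z : Matrix n n ℂ}

theorem Spin1.up (h : Spin1 s P Z) (hs : 0 < s) : ((s : ℂ) • (1 : Matrix n n ℂ) - Z).PosSemidef := by
  apply psd_of_smul (c := 2 * s + 1) (by linarith)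
  have hH : ((s : ℂ) • (1 : Matrix n n ℂ) - Z)ᴴ = (s : ℂ) • (1 : Matrix n n ℂ) - Z := by
    simp [h.Zh]
  have e : ((2 * s + 1 : ℝ) : ℂ) • ((s : ℂ) • (1 : Matrix n n ℂ) - Z)
      = Pᴴ * P + ((s : ℂ) • (1 : Matrix n n ℂ) - Z)ᴴ * ((s : ℂ) • (1 : Matrix n n ℂ) - Z) := by
    rw [hH, h.cas]
    simp only [sub_mul, mul_sub, smul_mul_assoc, mul_smul_comm, mul_one, one_mul]
    push_cast
    module
  rw [e]
  exact (posSemidef_conjTranspose_mul_self _).add (posSemidef_conjTranspose_mul_self _)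

theorem Spin1.down (h : Spin1 s P Z) (hs : 0 < s) :
    ((s : ℂ) • (1 : Matrix n n ℂ) + Z).PosSemidef := by
  apply psd_of_smul (c := 2 * s + 1) (by linarith)
  have hH : ((s : ℂ) • (1 : Matrix n n ℂ) + Z)ᴴ = (s : ℂ) • (1 : Matrix n n ℂ) + Z := by
    simp [h.Zh]
  have e : ((2 * s + 1 : ℝ) : ℂ) • ((s : ℂ) • (1 : Matrix n n ℂ) + Z)
      = P * Pᴴ + ((s : ℂ) • (1 : Matrix n n ℂ) + Z)ᴴ * ((s : ℂ) • (1 : Matrix n n ℂ) + Z) := by
    rw [hH, h.PQ, h.cas]
    simp only [add_mul, mul_add, smul_mul_assoc, mul_smul_comm, mul_one, one_mul]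
    push_cast
    module
  rw [e]
  exact (posSemidef_self_mul_conjTranspose _).add (posSemidef_conjTranspose_mul_self _)

theorem Spin1.sq (h : Spin1 s P Z) (hs : 0 < s) :
    (((s : ℂ) * s) • (1 : Matrix n n ℂ) - Z * Z).PosSemidef := by
  apply psd_of_smul (c := 2 * s) (by linarith)
  have hH : ((s : ℂ) • (1 : Matrix n n ℂ) - Z)ᴴ = (s : ℂ) • (1 : Matrix n n ℂ) - Z := by
    simp [h.Zh]
  have hH2 : ((s : ℂ) • (1 : Matrix n n ℂ) + Z)ᴴ = (s : ℂ) • (1 : Matrix n n ℂ) + Z := by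
    simp [h.Zh]
  have e : ((2 * s : ℝ) : ℂ) • (((s : ℂ) * s) • (1 : Matrix n n ℂ) - Z * Z)
      = ((s : ℂ) • (1 : Matrix n n ℂ) - Z)ᴴ * ((s : ℂ) • (1 : Matrix n n ℂ) + Z)
          * ((s : ℂ) • (1 : Matrix n n ℂ) - Z)
        + ((s : ℂ) • (1 : Matrix n n ℂ) + Z)ᴴ * ((s : ℂ) • (1 : Matrix n n ℂ) - Z)
          * ((s : ℂ) • (1 : Matrix n n ℂ) + Z) := by
    rw [hH, hH2]
    simp only [add_mul, mul_add, sub_mul, mul_sub, smul_mul_assoc, mul_smul_comm, mul_one, one_mul,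
      smul_add, smul_sub, smul_smul, mul_assoc]
    push_cast
    module
  rw [e]
  exact ((h.down hs).conjTranspose_mul_mul_same _).add ((h.up hs).conjTranspose_mul_mul_same _)

/-- `P^* P ≤ 2 s (s - Z)` -/
theorem Spin1.lower (h : Spin1 s P Z) (hs : 0 < s) :
    (((2 * s : ℝ) : ℂ) • ((s : ℂ) • (1 : Matrix n n ℂ) - Z) - Pᴴ * P).PosSemidef := by
  have hG : (((2 * s : ℝ) : ℂ) • ((s : ℂ) • (1 : Matrix n n ℂ) - Z) - Pᴴ * P).IsHermitian := by
    unfold IsHermitian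
    simp [h.Zh, conjTranspose_mul]
  apply psd_of_mul_psd (c := ((s : ℂ) + 1) • (1 : Matrix n n ℂ) + Z) hG
  · have : ((s : ℂ) + 1) • (1 : Matrix n n ℂ) + Z - 1 = (s : ℂ) • (1 : Matrix n n ℂ) + Z := by
      module
    rw [this]
    exact h.down hs
  · have e : (((2 * s : ℝ) : ℂ) • ((s : ℂ) • (1 : Matrix n n ℂ) - Z) - Pᴴ * P)
          * (((s : ℂ) + 1) • (1 : Matrix n n ℂ) + Z)
        = Pᴴ * ((s : ℂ) • (1 : Matrix n n ℂ) - Z) * P := by
      have e1 : Pᴴ * ((s : ℂ) • (1 : Matrix n n ℂ) - Z) * P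
          = Pᴴ * P * ((s : ℂ) • (1 : Matrix n n ℂ) - Z - 1) := by
        simp only [mul_sub, sub_mul, mul_one, mul_smul_comm, smul_mul_assoc, mul_assoc, h.ZP,
          mul_add]
        abel
      rw [e1, h.cas]
      simp only [add_mul, mul_add, sub_mul, mul_sub, smul_mul_assoc, mul_smul_comm, mul_one,
        one_mul, smul_add, smul_sub, smul_smul, mul_assoc]
      push_cast
      module
    rw [e]
    exact (h.up hs).conjTranspose_mul_mul_same _

end Vale.Agent.BlochHeis
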