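import Vale.Agent.BlochHeis.Defs
import Vale.Agent.BlochHeis.FinVol

open Matrix

namespace Vale.Agent.BlochHeis

variable {k N : ℕ}

theorem sum_off (x : Box N) (σ : Box N → Fin (k + 1)) (g : (Box N → Fin (k + 1)) → ℂ) :
    ∑ ρ, (if ∀ y, y ≠ x → σ y = ρ y then g ρ else 0) = ∑ a, g (Function.update σ x a) := by
  rw [← Finset.sum_filter]
  refine Finset.sum_nbij' (fun ρ => ρ x) (fun a => Function.update σ x a) ?_ ?_ ?_ ?_ ?_
  · intro ρ _; exact Finset.mem_univ _
  · intro a _
    simp only [Finset.mem_filter, Finset.mem_univ, true_and]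
    intro y hy
    rw [Function.update_of_ne hy]
  · intro ρ hρ
    simp only [Finset.mem_filter, Finset.mem_univ, true_and] at hρ
    funext y
    by_cases hy : y = x
    · subst hy; simp
    · rw [Function.update_of_ne hy]; exact hρ y hy
  · intro a _; simp
  · intro ρ hρ
    simp only [Finset.mem_filter, Finset.mem_univ, true_and] at hρ
    congr 1
    funext y
    by_cases hy : y = x
    · subst hy; simp
    · rw [Function.update_of_ne hy]; exact (hρ y hy).symm

theorem site_mul_apply (x : Box N) (A : Matrix (Fin (k + 1)) (Fin (k + 1)) ℂ) (O : Op k N)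
    (σ τ : Box N → Fin (k + 1)) :
    (site x A * O) σ τ = ∑ a, A (σ x) a * O (Function.update σ x a) τ := by
  rw [Matrix.mul_apply]
  unfold site
  simp only [Matrix.of_apply, ite_mul, zero_mul]
  rw [sum_off x σ (fun ρ => A (σ x) (ρ x) * O ρ τ)]
  simp

theorem site_mul (x : Box N) (A B : Matrix (Fin (k + 1)) (Fin (k + 1)) ℂ) :
    site x A * site x B = site x (A * B) := by
  ext σ τ
  rw [site_mul_apply]
  unfold site
  simp only [Matrix.of_apply]
  have : ∀ a, (∀ y, y ≠ x → Function.update σ x a y = τ y) ↔ (∀ y, y ≠ x → σ y = τ y) := by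
    intro a
    refine forall_congr' fun y => forall_congr' fun hy => ?_
    rw [Function.update_of_ne hy]
  simp only [this]
  by_cases h : ∀ y, y ≠ x → σ y = τ y
  · simp only [if_pos h, Function.update_self]
    rw [Matrix.mul_apply]
  · simp only [if_neg h, mul_zero, Finset.sum_const_zero]

theorem site_comm_apply (x y : Box N) (hxy : x ≠ y) (A B : Matrix (Fin (k + 1)) (Fin (k + 1)) ℂ)
    (σ τ : Box N → Fin (k + 1)) :
    (site x A * site y B) σ τ
      = if ∀ z, z ≠ x → z ≠ y → σ z = τ z then A (σ x) (τ x) * B (σ y) (τ y) else 0 := by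
  rw [site_mul_apply]
  unfold site
  simp only [Matrix.of_apply]
  rw [Finset.sum_eq_single (τ x)]
  · rw [Function.update_of_ne hxy.symm]
    have : (∀ z, z ≠ y → Function.update σ x (τ x) z = τ z) ↔
        (∀ z, z ≠ x → z ≠ y → σ z = τ z) := by
      constructor
      · intro h z hzx hzy
        have := h z hzy
        rwa [Function.update_of_ne hzx] at this
      · intro h z hzy
        by_cases hzx : z = x
        · subst hzx; simp
        · rw [Function.update_of_ne hzx]; exact h z hzx hzy
    simp only [this]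
    split_ifs <;> simp
  · intro a _ ha
    rw [if_neg, mul_zero]
    intro h
    have := h x hxy
    rw [Function.update_self] at this
    exact ha this
  · intro h; exact absurd (Finset.mem_univ _) h

theorem site_comm (x y : Box N) (hxy : x ≠ y) (A B : Matrix (Fin (k + 1)) (Fin (k + 1)) ℂ) :
    site x A * site y B = site y B * site x A := by
  ext σ τ
  rw [site_comm_apply x y hxy, site_comm_apply y x hxy.symm]
  have : (∀ z, z ≠ x → z ≠ y → σ z = τ z) ↔ (∀ z, z ≠ y → z ≠ x → σ z = τ z) :=
    ⟨fun h z a b => h z b a, fun h z a b => h z b a⟩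
  simp only [this, mul_comm]

theorem site_add (x : Box N) (A B : Matrix (Fin (k + 1)) (Fin (k + 1)) ℂ) :
    site x (A + B) = site x A + site x B := by
  ext σ τ
  unfold site
  simp only [Matrix.of_apply, Matrix.add_apply]
  split_ifs <;> simp

theorem site_sub (x : Box N) (A B : Matrix (Fin (k + 1)) (Fin (k + 1)) ℂ) :
    site x (A - B) = site x A - site x B := by
  ext σ τ
  unfold site
  simp only [Matrix.of_apply, Matrix.sub_apply]
  split_ifs <;> simp

theorem site_smul (x : Box N) (c : ℂ) (A : Matrix (Fin (k + 1)) (Fin (k + 1)) ℂ) :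
    site x (c • A) = c • site x A := by
  ext σ τ
  unfold site
  simp only [Matrix.of_apply, Matrix.smul_apply]
  split_ifs <;> simp

theorem site_one (x : Box N) : site x (1 : Matrix (Fin (k + 1)) (Fin (k + 1)) ℂ) = 1 := by
  ext σ τ
  unfold site
  simp only [Matrix.of_apply]
  by_cases h : σ = τ
  · subst h; simp
  · rw [Matrix.one_apply_ne h]
    split_ifs with h2
    · rw [Matrix.one_apply_ne]
      intro h3
      apply h
      funext y
      by_cases hy : y = x
      · subst hy; exact h3
      · exact h2 y hy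
    · rfl

theorem site_conjTranspose (x : Box N) (A : Matrix (Fin (k + 1)) (Fin (k + 1)) ℂ) :
    (site x A)ᴴ = site x Aᴴ := by
  ext σ τ
  unfold site
  simp only [Matrix.of_apply, Matrix.conjTranspose_apply]
  have : (∀ y, y ≠ x → τ y = σ y) ↔ (∀ y, y ≠ x → σ y = τ y) :=
    ⟨fun h y hy => (h y hy).symm, fun h y hy => (h y hy).symm⟩
  simp only [this]
  split_ifs <;> simp

/-- raising operator of a spin triple -/
noncomputable def raise {k : ℕ} (S : Fin 3 → Matrix (Fin (k + 1)) (Fin (k + 1)) ℂ) :
    Matrix (Fin (k + 1)) (Fin (k + 1)) ℂ := S 0 + Complex.I • S 1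

theorem raise_conjTranspose {S : Fin 3 → Matrix (Fin (k + 1)) (Fin (k + 1)) ℂ} (hS : IsSpin k S) :
    (raise S)ᴴ = S 0 - Complex.I • S 1 := by
  unfold raise
  rw [conjTranspose_add, conjTranspose_smul, (hS.herm 0).eq, (hS.herm 1).eq]
  simp [sub_eq_add_neg]

theorem spin1_of_isSpin {S : Fin 3 → Matrix (Fin (k + 1)) (Fin (k + 1)) ℂ} (hS : IsSpin k S) :
    Spin1 ((k : ℝ) / 2) (raise S) (S 2) := by
  have h01 : S 0 * S 1 = S 1 * S 0 + Complex.I • S 2 := by rw [← hS.comm01]; abel
  have h12 : S 2 * S 1 = S 1 * S 2 - Complex.I • S 0 := by rw [← hS.comm12]; abel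
  have h20 : S 2 * S 0 = S 0 * S 2 + Complex.I • S 1 := by rw [← hS.comm20]; abel
  have h00 : S 0 * S 0 = ((k : ℂ) / 2 * ((k : ℂ) / 2 + 1)) • 1 - S 1 * S 1 - S 2 * S 2 := by
    rw [← hS.casimir]; abel
  have hI : Complex.I * Complex.I = -1 := Complex.I_mul_I
  constructor
  · exact (hS.herm 2).eq
  · unfold raise
    simp only [mul_add, add_mul, mul_smul_comm, smul_mul_assoc, h20, h12, smul_sub, smul_smul, hI]
    module
  · rw [raise_conjTranspose hS]
    unfold raise
    simp only [mul_add, add_mul, mul_sub, sub_mul, mul_smul_comm, smul_mul_assoc, h01]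
    have e : ∀ X : Matrix (Fin (k + 1)) (Fin (k + 1)) ℂ,
        Complex.I • Complex.I • X = - X := by
      intro X; rw [smul_smul, hI, neg_one_smul]
    simp only [smul_add, smul_sub, e]
    module
  · rw [raise_conjTranspose hS]
    unfold raise
    simp only [mul_add, sub_mul, mul_smul_comm, smul_mul_assoc, h01, h00]
    have e : ∀ X : Matrix (Fin (k + 1)) (Fin (k + 1)) ℂ,
        Complex.I • Complex.I • X = - X := by
      intro X; rw [smul_smul, hI, neg_one_smul]
    simp only [smul_add, smul_sub, e]
    push_cast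
    module

theorem spinSys_box {S : Fin 3 → Matrix (Fin (k + 1)) (Fin (k + 1)) ℂ} (hS : IsSpin k S) :
    SpinSys ((k : ℝ) / 2) (fun x : Box N => site x (raise S)) (fun x : Box N => site x (S 2)) := by
  have h1 := spin1_of_isSpin hS
  constructor
  · intro x
    constructor
    · rw [site_conjTranspose, h1.Zh]
    · rw [site_mul, site_mul, h1.ZP, site_add]
    · rw [site_conjTranspose, site_mul, site_mul, h1.PQ, site_add, site_smul]
    · rw [site_conjTranspose, site_mul, h1.cas, site_sub, site_sub, site_smul, site_one, site_mul]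
  · intro x y hxy; exact site_comm x y hxy _ _
  · intro x y hxy; exact site_comm x y hxy _ _
  · intro x y hxy; exact site_comm x y hxy _ _
  · intro x y hxy; rw [site_conjTranspose]; exact site_comm x y hxy _ _

theorem dot_eq {S : Fin 3 → Matrix (Fin (k + 1)) (Fin (k + 1)) ℂ} (hS : IsSpin k S)
    (x y : Box N) :
    dot S x y = ex (fun x : Box N => site x (raise S)) (fun x : Box N => site x (S 2)) x y := by
  have hI : Complex.I * Complex.I = -1 := Complex.I_mul_I
  unfold dot ex exch
  rw [Fin.sum_univ_three]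
  simp only [site_conjTranspose, raise_conjTranspose hS]
  unfold raise
  simp only [site_add, site_sub, site_smul, mul_add, add_mul, mul_sub, sub_mul, mul_smul_comm,
    smul_mul_assoc, smul_add, smul_sub, smul_smul, hI]
  module

/-- couplings -/
noncomputable def cpl (N : ℕ) (x y : Box N) : ℝ := if Adj x y then 1 else 0

theorem cpl_self (N : ℕ) (x : Box N) : cpl N x x = 0 := by
  unfold cpl Adj
  simp

theorem cpl_nonneg (N : ℕ) (x y : Box N) : 0 ≤ cpl N x y := by
  unfold cpl
  split_ifs <;> norm_num

theorem ham_eq {S : Fin 3 → Matrix (Fin (k + 1)) (Fin (k + 1)) ℂ} (hS : IsSpin k S) (h : ℝ) :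
    ham S N - (h : ℂ) • mag S N
      = heis (fun x : Box N => site x (raise S)) (fun x : Box N => site x (S 2)) (cpl N) h := by
  unfold ham mag heis
  congr 1
  congr 1
  rw [one_div]
  congr 1
  refine Finset.sum_congr rfl fun x _ => Finset.sum_congr rfl fun y _ => ?_
  unfold cpl
  split_ifs with hxy
  · rw [dot_eq hS]; simp
  · simp

end Vale.Agent.BlochHeis
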