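import Mathlib

open Matrix NormedSpace

namespace Vale.Agent.BlochHeis

variable {n : Type*} [Fintype n] [DecidableEq n]

/-- diagonal form of a Hermitian matrix, together with its exponentials -/
theorem exists_diag (K : Matrix n n ℂ) (hK : K.IsHermitian) :
    ∃ (U : Matrix n n ℂ) (E : n → ℝ), U * Uᴴ = 1 ∧ Uᴴ * U = 1 ∧
      K = U * diagonal (fun i => (E i : ℂ)) * Uᴴ ∧
      ∀ t : ℝ, exp ((t : ℂ) • K) = U * diagonal (fun i => ((Real.exp (t * E i) : ℝ) : ℂ)) * Uᴴ := by
  classical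
  have h := hK.spectral_theorem
  rw [Unitary.conjStarAlgAut_apply] at h
  set U : Matrix n n ℂ := (hK.eigenvectorUnitary : Matrix n n ℂ) with hU
  have hU1 : U * Uᴴ = 1 := by
    have := Unitary.mul_star_self_of_mem (hK.eigenvectorUnitary).2
    simpa [hU, star_eq_conjTranspose] using this
  have hU2 : Uᴴ * U = 1 := by
    have := Unitary.star_mul_self_of_mem (hK.eigenvectorUnitary).2
    simpa [hU, star_eq_conjTranspose] using this
  have hK2 : K = U * diagonal (fun i => ((hK.eigenvalues i : ℝ) : ℂ)) * Uᴴ := by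
    simpa [star_eq_conjTranspose, Function.comp_def] using h
  refine ⟨U, hK.eigenvalues, hU1, hU2, hK2, ?_⟩
  intro t
  have hunit : IsUnit U := ⟨⟨U, Uᴴ, hU1, hU2⟩, rfl⟩
  have hinv : U⁻¹ = Uᴴ := Matrix.inv_eq_right_inv hU1
  have h1 : (t : ℂ) • K = U * diagonal (fun i => ((t * hK.eigenvalues i : ℝ) : ℂ)) * U⁻¹ := by
    rw [hinv]
    conv_lhs => rw [hK2]
    rw [← Matrix.smul_mul, ← Matrix.mul_smul, ← diagonal_smul]
    congr 3
    ext i
    simp
  rw [h1, exp_conj _ _ hunit, exp_diagonal, hinv]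
  congr 3
  ext i
  rw [Pi.coe_exp]
  simp [Complex.exp_eq_exp_ℂ]

theorem trace_exp_mul (U : Matrix n n ℂ) (e : n → ℂ) (O : Matrix n n ℂ) :
    trace ((U * diagonal e * Uᴴ) * O) = ∑ i, e i * (Uᴴ * O * U) i i := by
  have : trace ((U * diagonal e * Uᴴ) * O) = trace (diagonal e * (Uᴴ * O * U)) := by
    rw [Matrix.mul_assoc, Matrix.mul_assoc, Matrix.trace_mul_comm]
    simp only [Matrix.mul_assoc]
  rw [this]
  simp [trace, diagonal_mul]

end Vale.Agent.BlochHeis
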